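import Vale.Agent.P370.H855.ProgA

/-!
The program of the second half of line Q, part B: the positions of the light nuclei.
-/

namespace Vale.Agent.P370.H855

open Vale.Agent.Lib.PolyTime Function Finset
open Vale.Agent.P363.Stmt Vale.Agent.P370.H305
open Vale.Agent.P370.Heis (Code)
open Vale.Agent.P370.H198 (pt)

noncomputable section

theorem norm_le_sum (x : R3) : ‖x‖ ≤ |x 0| + |x 1| + |x 2| := by
  rw [EuclideanSpace.norm_eq, Real.sqrt_le_left (by positivity)]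
  simp only [Fin.sum_univ_three, Real.norm_eq_abs]
  nlinarith [abs_nonneg (x 0), abs_nonneg (x 1), abs_nonneg (x 2),
    mul_nonneg (abs_nonneg (x 0)) (abs_nonneg (x 1)),
    mul_nonneg (abs_nonneg (x 0)) (abs_nonneg (x 2)),
    mul_nonneg (abs_nonneg (x 1)) (abs_nonneg (x 2))]

theorem abs_le_norm (x : R3) (j : Fin 3) : |x j| ≤ ‖x‖ := by
  rw [EuclideanSpace.norm_eq, ← Real.norm_eq_abs]
  refine Real.le_sqrt_of_sq_le ?_
  exact Finset.single_le_sum (f := fun i => ‖x i‖ ^ 2) (fun i _ => by positivity) (mem_univ j)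

/-- The designed potential with the computed amplitudes. -/
def uX (K : Expo) (σ : Code → ℚ) (τ : Code × Un × Un → ℚ) (x : Code) : R3 → ℝ :=
  uD (base x.2.1 ^ K.kn) (dD x) (σ x) (fun a b => (τ (x, Un.mk a, Un.mk b) : ℝ))

/-- The exact target position of the light nucleus with number `i`. -/
def tgt (K : Expo) (σ : Code → ℚ) (τ : Code × Un × Un → ℚ) (p : Code × Un) : R3 :=
  dpt ((base p.1.2.1 : ℝ) ^ K.kt) (uX K σ τ p.1) (kOf ((base p.1.2.1 ^ K.kt) ^ 4) p.2.v)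

/-- What is needed of the gradient: it can be computed (precisely) at computable points different
from the origin. -/
def GradPTR : Prop :=
  ∀ {α : Type} [Enc α] {n m : α → ℕ} {sg : α → ℚ} {ta : α → ℕ → ℕ → ℚ} {X : α → R3}
    {Bd c : α → ℕ}, PT ∅ n → PBd n → (∀ a, 4 ≤ n a) → PT ∅ m → PBd m → PT ∅ sg →
    PT ∅ (fun p : α × Un × Un => ta p.1 p.2.1.v p.2.2.v) → (∀ j, PTR (fun a => X a j)) →
    PT ∅ Bd → PBd Bd → (∀ a, ‖X a‖ ≤ Bd a) → PT ∅ c → PBd c → (∀ a, 1 / 2 ^ c a ≤ ‖X a‖) →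
    ∀ j, PTR (fun a => (gradient (uD (n a) (m a) (sg a) (fun i k => (ta a i k : ℝ))) (X a)) j)

/-- The gradient vanishes at the origin. -/
def GradZero : Prop := ∀ (n m : ℕ) (σ : ℝ) (τ : ℕ → ℕ → ℝ), 4 ≤ n → gradient (uD n m σ τ) 0 = 0

theorem pt_apply (h : ℝ) (k : Fin 3 → ℤ) (j : Fin 3) : pt h k j = h * (k j : ℝ) := rfl

theorem PTR_tgt (hG : GradPTR) (hG0 : GradZero) (K : Expo) (hkn : 2 ≤ K.kn) {σ : Code → ℚ}
    (hσ : PT ∅ σ) {τ : Code × Un × Un → ℚ} (hτ : PT ∅ τ) (j : Fin 3) :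
    PTR (fun p : Code × Un => tgt K σ τ p j) := by
  have h1 : PT ∅ (fun p : Code × Un => p.1) := PT.fst'
  have hB : ∀ k, PT ∅ (fun p : Code × Un => base p.1.2.1 ^ k) := fun k => (PT_pw k).comp h1
  have hBb : ∀ k, PBd (fun p : Code × Un => base p.1.2.1 ^ k) := fun k =>
    (PBd_pw k).comp (A := ∅) h1
  have hk : ∀ j, PT ∅ (fun p : Code × Un => kOf ((base p.1.2.1 ^ K.kt) ^ 4) p.2.v j) := fun j =>
    PT_kOf ((hB K.kt).powConst 4) PT_precv j
  -- the lattice point, replaced by `(1, 0, 0)` if it is the origin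
  set z : Code × Un → Prop := fun p => (kOf ((base p.1.2.1 ^ K.kt) ^ 4) p.2.v 0 = 0 ∧
    kOf ((base p.1.2.1 ^ K.kt) ^ 4) p.2.v 1 = 0) ∧
    kOf ((base p.1.2.1 ^ K.kt) ^ 4) p.2.v 2 = 0 with hz
  have hzd : DecidablePred z := fun p => by rw [hz]; infer_instance
  have hzP : PT ∅ (fun p => decide (z p)) := by
    refine ((((PT.intEq (hk 0) (PT.const 0)).and (PT.intEq (hk 1) (PT.const 0))).and
      (PT.intEq (hk 2) (PT.const 0)))).congr fun p => ?_
    simp [hz, Bool.decide_and]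
  set X : Code × Un → R3 := fun p => if z p then !₂[(1 : ℝ), 0, 0] else
    pt (1 / (base p.1.2.1 : ℝ) ^ K.kt) (kOf ((base p.1.2.1 ^ K.kt) ^ 4) p.2.v) with hX
  have hptR : ∀ j, PTR (fun p : Code × Un => pt (1 / (base p.1.2.1 : ℝ) ^ K.kt)
      (kOf ((base p.1.2.1 ^ K.kt) ^ 4) p.2.v) j) := fun j =>
    (PTR.ofFrac (hk j) (hB K.kt)).congr fun p => by
      rw [pt_apply]
      push_cast
      ring
  have hXj : ∀ j, PTR (fun p => X p j) := fun j => by
    have h2 : PTR (fun _ : Code × Un => (!₂[(1 : ℝ), 0, 0] : R3) j) := by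
      fin_cases j
      · exact PTR.one
      · exact PTR.zero
      · exact PTR.zero
    refine (PTR.ite hzP h2 (hptR j)).congr fun p => ?_
    rw [hX]
    by_cases h : z p
    · simp only [h, if_true]
    · simp only [h, if_false]
  have hbpos : ∀ (p : Code × Un) k, 0 < base p.1.2.1 ^ k := fun p k => pw_pos _ _
  have hkabs : ∀ (p : Code × Un) j, |((kOf ((base p.1.2.1 ^ K.kt) ^ 4) p.2.v j : ℤ) : ℝ)| ≤
      (((base p.1.2.1 ^ K.kt) ^ 4 : ℕ) : ℝ) := fun p j => by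
    have := mem_box.1 (kOf_mem ((base p.1.2.1 ^ K.kt) ^ 4) p.2.v) j
    rw [abs_le]
    constructor
    · have h := this.1
      exact_mod_cast h
    · have h := this.2
      exact_mod_cast h
  have hXup : ∀ p, ‖X p‖ ≤ ((3 * (base p.1.2.1 ^ K.kt) ^ 4 + 1 : ℕ) : ℝ) := fun p => by
    rw [hX]
    by_cases h : z p
    · simp only [h, if_true]
      refine (norm_le_sum _).trans ?_
      simp
    · simp only [h, if_false]
      refine (norm_le_sum _).trans ?_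
      simp only [pt_apply, abs_mul]
      have hb : (1 : ℝ) ≤ (base p.1.2.1 : ℝ) ^ K.kt := by exact_mod_cast hbpos p K.kt
      have hb1 : |1 / (base p.1.2.1 : ℝ) ^ K.kt| ≤ 1 := by
        rw [abs_of_nonneg (by positivity), div_le_one (by linarith)]
        exact hb
      have h2 : ∀ j, |1 / (base p.1.2.1 : ℝ) ^ K.kt| *
          |((kOf ((base p.1.2.1 ^ K.kt) ^ 4) p.2.v j : ℤ) : ℝ)| ≤
          (((base p.1.2.1 ^ K.kt) ^ 4 : ℕ) : ℝ) := fun j =>
        (mul_le_mul hb1 (hkabs p j) (abs_nonneg _) (by norm_num)).trans (by rw [one_mul])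
      have e0 := h2 0
      have e1 := h2 1
      have e2 := h2 2
      push_cast at e0 e1 e2 ⊢
      linarith
  have hXlo : ∀ p, 1 / 2 ^ Nat.size (base p.1.2.1 ^ K.kt) ≤ ‖X p‖ := fun p => by
    have hs1 : (1 : ℝ) ≤ 2 ^ Nat.size (base p.1.2.1 ^ K.kt) := one_le_pow₀ (by norm_num)
    rw [hX]
    by_cases h : z p
    · simp only [h, if_true]
      have h3 : |(!₂[(1 : ℝ), 0, 0] : R3) 0| ≤ ‖(!₂[(1 : ℝ), 0, 0] : R3)‖ := abs_le_norm _ 0
      have h4 : |(!₂[(1 : ℝ), 0, 0] : R3) 0| = 1 := by simp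
      rw [h4] at h3
      refine le_trans ?_ h3
      rw [div_le_one (by positivity)]
      exact hs1
    · simp only [h, if_false]
      have h2 : ∃ j, kOf ((base p.1.2.1 ^ K.kt) ^ 4) p.2.v j ≠ 0 := by
        by_contra hcon
        push Not at hcon
        exact h ⟨⟨hcon 0, hcon 1⟩, hcon 2⟩
      obtain ⟨j, hj⟩ := h2
      refine le_trans ?_ (abs_le_norm _ j)
      rw [pt_apply, abs_mul, abs_of_nonneg (by positivity)]
      have h5 : (1 : ℝ) ≤ |((kOf ((base p.1.2.1 ^ K.kt) ^ 4) p.2.v j : ℤ) : ℝ)| := by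
        exact_mod_cast Int.one_le_abs hj
      have h6 : ((base p.1.2.1 ^ K.kt : ℕ) : ℝ) ≤ 2 ^ Nat.size (base p.1.2.1 ^ K.kt) := by
        exact_mod_cast (Nat.lt_size_self _).le
      rw [Nat.cast_pow] at h6
      have hb0 : (0 : ℝ) < (base p.1.2.1 : ℝ) ^ K.kt := by exact_mod_cast hbpos p K.kt
      calc (1 : ℝ) / 2 ^ Nat.size (base p.1.2.1 ^ K.kt) ≤ 1 / (base p.1.2.1 : ℝ) ^ K.kt :=
            one_div_le_one_div_of_le hb0 h6
        _ = 1 / (base p.1.2.1 : ℝ) ^ K.kt * 1 := by ring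
        _ ≤ _ := by gcongr
  have hn4 : ∀ p : Code × Un, 4 ≤ base p.1.2.1 ^ K.kn := fun p => by
    calc 4 = 2 ^ 2 := by norm_num
      _ ≤ base p.1.2.1 ^ 2 := Nat.pow_le_pow_left (two_le_base _) 2
      _ ≤ base p.1.2.1 ^ K.kn := Nat.pow_le_pow_right (by have := two_le_base p.1.2.1; omega) hkn
  have hgr : PTR (fun p : Code × Un => (gradient (uX K σ τ p.1) (X p)) j) := by
    have hs : PT ∅ (fun p : Code × Un => Nat.size (base p.1.2.1 ^ K.kt)) := (hB K.kt).natSize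
    have hsb : PBd (fun p : Code × Un => Nat.size (base p.1.2.1 ^ K.kt)) :=
      (hB K.kt).pbd.mono fun a => by rw [esize_nat]
    exact hG (α := Code × Un) (n := fun p => base p.1.2.1 ^ K.kn) (m := fun p => dD p.1)
      (sg := fun p => σ p.1) (ta := fun p a b => τ (p.1, Un.mk a, Un.mk b)) (X := X)
      (Bd := fun p => 3 * (base p.1.2.1 ^ K.kt) ^ 4 + 1)
      (c := fun p => Nat.size (base p.1.2.1 ^ K.kt)) (hB K.kn) (hBb K.kn) hn4 (PT_dD.comp h1)
      (PBd_dD.comp (A := ∅) h1) (hσ.comp h1)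
      (hτ.comp (PT.fst'.fst.pair PT.snd')) hXj
      (((PT.const 3).mul ((hB K.kt).powConst 4)).add (PT.const 1))
      (((PBd.const 3).mul ((hBb K.kt).pow 4)).add (PBd.const 1)) hXup hs hsb hXlo j
  -- the prefactor `1 / (4 π t³)`
  have hpre : PTR (fun p : Code × Un => (4 * Real.pi * ((base p.1.2.1 : ℝ) ^ K.kt) ^ 3)⁻¹) := by
    have h2 : PTR (fun p : Code × Un => 4 * Real.pi * ((base p.1.2.1 : ℝ) ^ K.kt) ^ 3) :=
      (((PTR.constNat 4).mul PTR.pi).mul (PTR.ofNat ((hB K.kt).powConst 3))).congr fun p => by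
        push_cast
        ring
    refine h2.inv (c := fun _ => 0) (PT.const 0) (PBd.const 0) fun p => ?_
    have hb : (1 : ℝ) ≤ (base p.1.2.1 : ℝ) ^ K.kt := by exact_mod_cast hbpos p K.kt
    rw [pow_zero, div_one, abs_of_nonneg (by have := Real.pi_pos; positivity)]
    have h3 : (1 : ℝ) ≤ ((base p.1.2.1 : ℝ) ^ K.kt) ^ 3 := one_le_pow₀ hb
    have h4 := Real.pi_gt_three
    nlinarith
  refine ((hptR j).sub (hpre.mul (PTR.ite hzP PTR.zero hgr))).congr fun p => ?_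
  unfold tgt dpt
  rw [PiLp.sub_apply, PiLp.smul_apply, smul_eq_mul]
  by_cases h : z p
  · have hk0 : kOf ((base p.1.2.1 ^ K.kt) ^ 4) p.2.v = 0 := by
      funext i
      fin_cases i
      · exact h.1.1
      · exact h.1.2
      · exact h.2
    have hp0 : pt (1 / (base p.1.2.1 : ℝ) ^ K.kt) (kOf ((base p.1.2.1 ^ K.kt) ^ 4) p.2.v) = 0 := by
      rw [hk0]
      ext i
      rw [pt_apply]
      simp
    have hg0 : gradient (uX K σ τ p.1) 0 = 0 := hG0 _ _ _ _ (hn4 p)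
    simp only [h, if_true]
    rw [hp0, hg0]
    simp
  · have hXp : X p = pt (1 / (base p.1.2.1 : ℝ) ^ K.kt) (kOf ((base p.1.2.1 ^ K.kt) ^ 4) p.2.v) := by
      rw [hX]
      simp only [h, if_false]
    simp only [h, if_false]
    rw [hXp, one_div (4 * Real.pi * ((base p.1.2.1 : ℝ) ^ K.kt) ^ 3)]

/-! ### Rounded positions -/

/-- Number of binary digits of the positions. -/
def kp (K : Expo) (p : Code × Un) : ℕ := 13 * Nat.size (base p.1.2.1 ^ K.kt) + 4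

/-- The modulus which makes the positions distinct. -/
def md (K : Expo) (x : Code) : ℕ := (2 * (base x.2.1 ^ K.kt) ^ 4 + 1) ^ 3 + 1

/-- The rounded position of the light nucleus with number `i` (scaled units), from the integers
`g j ≈ 2^κ target_j`. -/
def yq (K : Expo) (g : Fin 3 → Code × Un → ℤ) (p : Code × Un) : ℚ × ℚ × ℚ :=
  (((g 0 p * md K p.1 + (p.2.v + 1 : ℕ) : ℤ) : ℚ) / ((2 ^ kp K p * md K p.1 : ℕ) : ℚ),
    ((g 1 p : ℤ) : ℚ) / ((2 ^ kp K p : ℕ) : ℚ), ((g 2 p : ℤ) : ℚ) / ((2 ^ kp K p : ℕ) : ℚ))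

theorem PT_kp (K : Expo) : PT ∅ (kp K) :=
  ((PT.const 13).mul ((PT_pw K.kt).comp PT.fst').natSize).add (PT.const 4)

theorem PBd_kp (K : Expo) : PBd (kp K) := by
  have h : PT ∅ (fun p : Code × Un => base p.1.2.1 ^ K.kt) := (PT_pw K.kt).comp PT.fst'
  exact ((PBd.const 13).mul (h.pbd.mono fun a => by rw [esize_nat])).add (PBd.const 4)

theorem PT_md (K : Expo) : PT ∅ (md K) :=
  ((((PT.const 2).mul ((PT_pw K.kt).powConst 4)).add (PT.const 1)).powConst 3).add (PT.const 1)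

theorem PBd_md (K : Expo) : PBd (md K) :=
  ((((PBd.const 2).mul ((PBd_pw K.kt).pow 4)).add (PBd.const 1)).pow 3).add (PBd.const 1)

theorem md_pos (K : Expo) (x : Code) : 0 < md K x := Nat.succ_pos _

theorem PT_yq (K : Expo) {g : Fin 3 → Code × Un → ℤ} (hg : ∀ j, PT ∅ (g j)) : PT ∅ (yq K g) := by
  have h2 : PT ∅ (fun p => 2 ^ kp K p) := PT_twoPow (PT_kp K) (PBd_kp K)
  have hm : PT ∅ (fun p : Code × Un => md K p.1) := (PT_md K).comp PT.fst'
  refine PT.pair (PT_divRat (n := fun p : Code × Un => g 0 p * md K p.1 + (p.2.v + 1 : ℕ))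
    (PT.intAdd (PT.intMul (hg 0) hm.natCast) (PT_precv.add (PT.const 1)).natCast)
    (h2.mul hm) fun p => Nat.mul_pos (by positivity) (md_pos K p.1)) (PT.pair ?_ ?_)
  · exact PT_divRat (hg 1) h2 fun p => by positivity
  · exact PT_divRat (hg 2) h2 fun p => by positivity

/-- The position as a point of the space. -/
def yv (K : Expo) (g : Fin 3 → Code × Un → ℤ) (p : Code × Un) : R3 := point (yq K g p)

theorem yv_zero (K : Expo) (g : Fin 3 → Code × Un → ℤ) (p : Code × Un) : yv K g p 0 =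
    ((g 0 p * md K p.1 + (p.2.v + 1 : ℕ) : ℤ) : ℝ) / ((2 ^ kp K p * md K p.1 : ℕ) : ℝ) := by
  unfold yv point yq
  simp

theorem yv_one (K : Expo) (g : Fin 3 → Code × Un → ℤ) (p : Code × Un) : yv K g p 1 =
    (g 1 p : ℝ) / 2 ^ kp K p := by
  unfold yv point yq
  simp

theorem yv_two (K : Expo) (g : Fin 3 → Code × Un → ℤ) (p : Code × Un) : yv K g p 2 =
    (g 2 p : ℝ) / 2 ^ kp K p := by
  unfold yv point yq
  simp

/-- The rounding error. -/
theorem yv_err {K : Expo} {σ : Code → ℚ} {τ : Code × Un × Un → ℚ} {g : Fin 3 → Code × Un → ℤ}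
    (hg : ∀ j p, |tgt K σ τ p j - (g j p : ℝ) / 2 ^ kp K p| ≤ 1 / 2 ^ kp K p) (p : Code × Un)
    (hp : p.2.v + 1 ≤ md K p.1) :
    ‖yv K g p - tgt K σ τ p‖ ≤ 1 / ((base p.1.2.1 : ℝ) ^ K.kt) ^ 13 := by
  have hm : (0 : ℝ) < md K p.1 := by exact_mod_cast md_pos K p.1
  have h2 : (0 : ℝ) < 2 ^ kp K p := by positivity
  refine (norm_le_sum _).trans ?_
  simp only [PiLp.sub_apply]
  have e0 : |yv K g p 0 - tgt K σ τ p 0| ≤ 2 / 2 ^ kp K p := by
    rw [yv_zero]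
    have h3 := hg 0 p
    rw [abs_sub_comm] at h3
    push_cast
    have e : ((g 0 p : ℝ) * md K p.1 + ((p.2.v : ℝ) + 1)) / (2 ^ kp K p * md K p.1) -
        tgt K σ τ p 0 = ((g 0 p : ℝ) / 2 ^ kp K p - tgt K σ τ p 0) +
          ((p.2.v : ℝ) + 1) / md K p.1 * (1 / 2 ^ kp K p) := by
      field_simp
      ring
    rw [e]
    have h4 : ((p.2.v : ℝ) + 1) / md K p.1 ≤ 1 := by
      rw [div_le_one hm]
      exact_mod_cast hp
    have h5 : |((p.2.v : ℝ) + 1) / md K p.1 * (1 / 2 ^ kp K p)| ≤ 1 / 2 ^ kp K p := by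
      rw [abs_of_nonneg (by positivity)]
      calc ((p.2.v : ℝ) + 1) / md K p.1 * (1 / 2 ^ kp K p) ≤ 1 * (1 / 2 ^ kp K p) := by gcongr
        _ = _ := one_mul _
    calc _ ≤ _ := abs_add_le _ _
      _ ≤ 1 / 2 ^ kp K p + 1 / 2 ^ kp K p := add_le_add h3 h5
      _ = 2 / 2 ^ kp K p := by ring
  have e1 : |yv K g p 1 - tgt K σ τ p 1| ≤ 1 / 2 ^ kp K p := by
    rw [yv_one, abs_sub_comm]
    exact hg 1 p
  have e2 : |yv K g p 2 - tgt K σ τ p 2| ≤ 1 / 2 ^ kp K p := by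
    rw [yv_two, abs_sub_comm]
    exact hg 2 p
  have hb0 : (0 : ℝ) < (base p.1.2.1 : ℝ) ^ K.kt := by exact_mod_cast pw_pos p.1.2.1 K.kt
  have h6 : (base p.1.2.1 : ℝ) ^ K.kt ≤ 2 ^ Nat.size (base p.1.2.1 ^ K.kt) := by
    have : ((base p.1.2.1 ^ K.kt : ℕ) : ℝ) ≤ 2 ^ Nat.size (base p.1.2.1 ^ K.kt) := by
      exact_mod_cast (Nat.lt_size_self _).le
    rwa [Nat.cast_pow] at this
  have h7 : 4 * ((base p.1.2.1 : ℝ) ^ K.kt) ^ 13 ≤ 2 ^ kp K p := by
    unfold kp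
    rw [pow_add, mul_comm 13, pow_mul]
    have : ((base p.1.2.1 : ℝ) ^ K.kt) ^ 13 ≤ (2 ^ Nat.size (base p.1.2.1 ^ K.kt)) ^ 13 := by
      gcongr
    nlinarith [show (0 : ℝ) < ((base p.1.2.1 : ℝ) ^ K.kt) ^ 13 by positivity]
  calc |yv K g p 0 - tgt K σ τ p 0| + |yv K g p 1 - tgt K σ τ p 1| + |yv K g p 2 - tgt K σ τ p 2|
      ≤ 4 / 2 ^ kp K p := by
        have e3 : (2 : ℝ) / 2 ^ kp K p + 1 / 2 ^ kp K p + 1 / 2 ^ kp K p = 4 / 2 ^ kp K p := by ring
        linarith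
    _ ≤ 1 / ((base p.1.2.1 : ℝ) ^ K.kt) ^ 13 := by
        rw [div_le_div_iff₀ h2 (by positivity)]
        linarith

/-- The first coordinate determines the number. -/
theorem num_mod {K : Expo} {g : Fin 3 → Code × Un → ℤ} {x : Code} {i : ℕ} (hi : i + 1 < md K x) :
    (g 0 (x, Un.mk i) * md K x + (i + 1 : ℕ) : ℤ) % md K x = i + 1 := by
  rw [add_comm, Int.add_mul_emod_self_right, Int.emod_eq_of_lt (by positivity) (by exact_mod_cast hi)]
  push_cast
  rfl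

theorem yq_inj {K : Expo} {g : Fin 3 → Code × Un → ℤ} {x : Code} {i i' : ℕ}
    (hi : i + 1 < md K x) (hi' : i' + 1 < md K x)
    (h : (yq K g (x, Un.mk i)).1 = (yq K g (x, Un.mk i')).1) : i = i' := by
  unfold yq at h
  simp only at h
  have hk : kp K (x, Un.mk i) = kp K (x, Un.mk i') := rfl
  rw [hk] at h
  have hpos : (0 : ℚ) < ((2 ^ kp K (x, Un.mk i') * md K x : ℕ) : ℚ) := by
    have := md_pos K x
    positivity
  have h1 := (div_left_inj' hpos.ne').1 h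
  have h2 : (g 0 (x, Un.mk i) * md K x + (i + 1 : ℕ) : ℤ) =
      g 0 (x, Un.mk i') * md K x + (i' + 1 : ℕ) := by exact_mod_cast h1
  have h3 := num_mod (g := g) hi
  have h4 := num_mod (g := g) hi'
  rw [h2, h4] at h3
  omega

theorem yq_ne {K : Expo} {g : Fin 3 → Code × Un → ℤ} {x : Code} {i : ℕ}
    (hi : i + 1 < md K x) : (yq K g (x, Un.mk i)).1 ≠ 0 := by
  intro h
  unfold yq at h
  simp only at h
  have hpos : (0 : ℚ) < ((2 ^ kp K (x, Un.mk i) * md K x : ℕ) : ℚ) := by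
    have := md_pos K x
    positivity
  have h1 := (div_eq_zero_iff.1 h).resolve_right hpos.ne'
  have h2 : (g 0 (x, Un.mk i) * md K x + (i + 1 : ℕ) : ℤ) = 0 := by exact_mod_cast h1
  have h3 := num_mod (g := g) hi
  rw [h2] at h3
  simp at h3
  omega

/-- Lower bound of the first coordinate. -/
theorem yv_lower {K : Expo} {g : Fin 3 → Code × Un → ℤ} {x : Code} {i : ℕ}
    (hi : i + 1 < md K x) : 1 / ((2 ^ kp K (x, Un.mk i) * md K x : ℕ) : ℝ) ≤ ‖yv K g (x, Un.mk i)‖ := by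
  refine le_trans ?_ (abs_le_norm _ 0)
  rw [yv_zero, abs_div, Nat.abs_cast]
  have h2 : (g 0 (x, Un.mk i) * md K x + (i + 1 : ℕ) : ℤ) ≠ 0 := by
    intro h
    have h3 := num_mod (g := g) hi
    rw [h] at h3
    simp at h3
    omega
  have h3 : (1 : ℝ) ≤ |((g 0 (x, Un.mk i) * md K x + (i + 1 : ℕ) : ℤ) : ℝ)| := by
    exact_mod_cast Int.one_le_abs h2
  simp only
  gcongr

end

end Vale.Agent.P370.H855
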