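import Vale.Agent.P370.H855.Exp

/-!
Real-valued functions that can be approximated in polynomial time with polynomially small error
(`PTW`: error `1 / (k + 1)`, `k` in unary).
-/

namespace Vale.Agent.P370.H855

open Vale.Agent.Lib.PolyTime Function

variable {α β γ : Type*} [Enc α] [Enc β] [Enc γ]

/-- `f` can be computed with error `1 / (k + 1)` in time polynomial in the size of the argument
and in `k`. -/
def PTW (f : α → ℝ) : Prop :=
  ∃ g : α × Un → ℤ, PT ∅ g ∧ ∀ a k, |f a - (g (a, Un.mk k) : ℝ) / (k + 1)| ≤ 1 / (k + 1)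

/-- It suffices to compute a fraction. -/
theorem PTW.intro {f : α → ℝ} {n : α × Un → ℤ} {d : α × Un → ℕ} (hn : PT ∅ n) (hd : PT ∅ d)
    (hd0 : ∀ p, 0 < d p) (h : ∀ a k, |f a - (n (a, Un.mk k) : ℝ) / d (a, Un.mk k)| ≤ 1 / (k + 1)) :
    PTW f := by
  have hp : PT ∅ (fun p : α × Un => (p.1, Un.mk (2 * p.2.v + 1))) :=
    PT_prec PT.fst' (((PT.const 2).mul PT_precv).add (PT.const 1))
      (((PBd.const 2).mul PBd_precv).add (PBd.const 1))
  refine ⟨fun p => rdiv ((p.2.v + 1 : ℕ) * n (p.1, Un.mk (2 * p.2.v + 1)))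
      (d (p.1, Un.mk (2 * p.2.v + 1))),
    PT_rdiv (PT.intMul (PT_precv.add (PT.const 1)).natCast (hn.comp hp)) (hd.comp hp),
    fun a k => ?_⟩
  simp only
  set N := n (a, Un.mk (2 * k + 1)) with hN
  set D := d (a, Un.mk (2 * k + 1)) with hD
  have hk : (0 : ℝ) < k + 1 := by positivity
  have h1 := rdiv_err (n := ((k + 1 : ℕ) : ℤ) * N) (hd0 (a, Un.mk (2 * k + 1)))
  rw [← hD] at h1
  push_cast at h1
  have h2 := h a (2 * k + 1)
  rw [← hN, ← hD] at h2
  push_cast at h2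
  have h3 : f a - (rdiv ((k + 1 : ℕ) * N) D : ℝ) / (k + 1) =
      (f a - (N : ℝ) / D) + (((k + 1) * (N : ℝ)) / D - rdiv (((k : ℤ) + 1) * N) D) / (k + 1) := by
    have hD' : (D : ℝ) ≠ 0 := by exact_mod_cast (hd0 (a, Un.mk (2 * k + 1))).ne'
    push_cast
    field_simp
    ring
  rw [h3]
  refine (abs_add_le _ _).trans ?_
  rw [abs_div, abs_of_pos hk]
  have h4 : |(k + 1) * (N : ℝ) / D - rdiv (((k : ℤ) + 1) * N) D| / (k + 1) ≤ (1 / 2) / (k + 1) := by
    gcongr
  have h5 : (1 : ℝ) / (2 * k + 1 + 1) + (1 / 2) / (k + 1) = 1 / (k + 1) := by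
    field_simp
    ring
  linarith

theorem PTW.congr {f g : α → ℝ} (hf : PTW f) (h : ∀ a, f a = g a) : PTW g := by
  have : f = g := funext h
  rwa [← this]

theorem PTW.comp {f : α → ℝ} {h : β → α} (hf : PTW f) (hh : PT ∅ h) : PTW (fun b => f (h b)) := by
  obtain ⟨g, hg, hg'⟩ := hf
  exact ⟨fun p => g (h p.1, p.2), hg.comp ((hh.comp PT.fst').pair PT.snd'), fun b k => hg' (h b) k⟩

/-- The approximation at a chosen precision. -/
theorem PTW.approx {f : α → ℝ} (hf : PTW f) {κ : β → ℕ} {c : β → α} (hc : PT ∅ c)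
    (hκ : PT ∅ κ) (hκb : PBd κ) :
    ∃ g : β → ℤ, PT ∅ g ∧ ∀ b, |f (c b) - (g b : ℝ) / (κ b + 1)| ≤ 1 / (κ b + 1) := by
  obtain ⟨g, hg, hg'⟩ := hf
  exact ⟨fun b => g (c b, Un.mk (κ b)), hg.comp (PT_prec hc hκ hκb), fun b => hg' _ _⟩

/-- The approximation of a precise function, at a chosen precision. -/
theorem PTR.toPTW {f : α → ℝ} (hf : PTR f) : PTW f := by
  obtain ⟨g, hg, hg'⟩ := hf.approx (β := α × Un) (κ := fun p => p.2.v) (c := fun p => p.1)
    PT.fst' PT_precv PBd_precv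
  refine PTW.intro hg (PT_twoPow PT_precv PBd_precv) (fun p => by positivity) fun a k => ?_
  have h1 := hg' (a, Un.mk k)
  simp only at h1 ⊢
  push_cast
  refine h1.trans ?_
  have h2 : (k + 1 : ℝ) ≤ 2 ^ k := by exact_mod_cast (Nat.lt_two_pow_self (n := k))
  gcongr

/-! ### Closure properties -/

theorem PTW.neg {f : α → ℝ} (hf : PTW f) : PTW (fun a => -f a) := by
  obtain ⟨g, hg, hg'⟩ := hf
  refine ⟨fun p => - g p, hg.intNeg, fun a k => ?_⟩
  have := hg' a k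
  rw [← abs_neg] at this
  convert this using 2
  push_cast
  ring

theorem PTW.add {f h : α → ℝ} (hf : PTW f) (hh : PTW h) : PTW (fun a => f a + h a) := by
  have hκ : PT ∅ (fun p : α × Un => 2 * p.2.v + 1) :=
    ((PT.const 2).mul PT_precv).add (PT.const 1)
  have hκb : PBd (fun p : α × Un => 2 * p.2.v + 1) :=
    ((PBd.const 2).mul PBd_precv).add (PBd.const 1)
  obtain ⟨g1, hg1, hg1'⟩ := hf.approx PT.fst' hκ hκb
  obtain ⟨g2, hg2, hg2'⟩ := hh.approx PT.fst' hκ hκb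
  refine PTW.intro (n := fun p => g1 p + g2 p) (d := fun p => 2 * p.2.v + 1 + 1)
    (PT.intAdd hg1 hg2) (hκ.add (PT.const 1)) (fun p => by positivity) fun a k => ?_
  have h1 := hg1' (a, Un.mk k)
  have h2 := hg2' (a, Un.mk k)
  simp only at h1 h2 ⊢
  push_cast at h1 h2 ⊢
  have h3 : f a + h a - ((g1 (a, Un.mk k) : ℝ) + g2 (a, Un.mk k)) / (2 * k + 1 + 1) =
      (f a - (g1 (a, Un.mk k) : ℝ) / (2 * k + 1 + 1)) +
        (h a - (g2 (a, Un.mk k) : ℝ) / (2 * k + 1 + 1)) := by ring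
  rw [h3]
  refine (abs_add_le _ _).trans ((add_le_add h1 h2).trans (le_of_eq ?_))
  field_simp
  ring

theorem PTW.sub {f h : α → ℝ} (hf : PTW f) (hh : PTW h) : PTW (fun a => f a - h a) :=
  (hf.add hh.neg).congr fun a => by ring

theorem PTW.abs {f : α → ℝ} (hf : PTW f) : PTW (fun a => |f a|) := by
  obtain ⟨g, hg, hg'⟩ := hf
  refine ⟨fun p => |g p|, hg.intAbs, fun a k => ?_⟩
  have h1 := hg' a k
  have h2 : ((|g (a, Un.mk k)| : ℤ) : ℝ) / (k + 1) = |(g (a, Un.mk k) : ℝ) / (k + 1)| := by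
    rw [abs_div, abs_of_pos (show (0 : ℝ) < k + 1 by positivity)]
    push_cast
    rfl
  rw [h2]
  exact (abs_abs_sub_abs_le _ _).trans h1

theorem PTW.ite {p : α → Prop} [DecidablePred p] (hp : PT ∅ (fun a => decide (p a)))
    {f h : α → ℝ} (hf : PTW f) (hh : PTW h) : PTW (fun a => if p a then f a else h a) := by
  obtain ⟨g1, hg1, hg1'⟩ := hf
  obtain ⟨g2, hg2, hg2'⟩ := hh
  refine ⟨fun q => if p q.1 then g1 q else g2 q, PT.ite (hp.comp PT.fst') hg1 hg2, fun a k => ?_⟩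
  by_cases h : p a
  · simpa [h] using hg1' a k
  · simpa [h] using hg2' a k

/-- Products of polynomially bounded functions. -/
theorem PTW.mul {f h : α → ℝ} (hf : PTW f) (hh : PTW h) {B1 B2 : α → ℕ} (hB1 : PT ∅ B1)
    (hB1b : PBd B1) (hB2 : PT ∅ B2) (hB2b : PBd B2) (h1 : ∀ a, |f a| ≤ B1 a)
    (h2 : ∀ a, |h a| ≤ B2 a) : PTW (fun a => f a * h a) := by
  have hκ : PT ∅ (fun p : α × Un => (p.2.v + 1) * (B1 p.1 + B2 p.1 + 1)) :=
    (PT_precv.add (PT.const 1)).mul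
      (((hB1.comp PT.fst').add (hB2.comp PT.fst')).add (PT.const 1))
  have hκb : PBd (fun p : α × Un => (p.2.v + 1) * (B1 p.1 + B2 p.1 + 1)) :=
    (PBd_precv.add (PBd.const 1)).mul
      (((hB1b.comp (A := ∅) PT.fst').add (hB2b.comp (A := ∅) PT.fst')).add (PBd.const 1))
  obtain ⟨g1, hg1, hg1'⟩ := hf.approx PT.fst' hκ hκb
  obtain ⟨g2, hg2, hg2'⟩ := hh.approx PT.fst' hκ hκb
  have hD : PT ∅ (fun p : α × Un => (p.2.v + 1) * (B1 p.1 + B2 p.1 + 1) + 1) :=
    hκ.add (PT.const 1)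
  refine PTW.intro (n := fun p => g1 p * g2 p)
    (d := fun p => ((p.2.v + 1) * (B1 p.1 + B2 p.1 + 1) + 1) *
      ((p.2.v + 1) * (B1 p.1 + B2 p.1 + 1) + 1))
    (PT.intMul hg1 hg2) (hD.mul hD) (fun p => by positivity) fun a k => ?_
  have e1 := hg1' (a, Un.mk k)
  have e2 := hg2' (a, Un.mk k)
  simp only at e1 e2 ⊢
  push_cast at e1 e2 ⊢
  set m : ℝ := (k + 1) * ((B1 a : ℝ) + B2 a + 1) + 1 with hm
  have hm0 : 0 < m := by positivity
  set u : ℝ := (g1 (a, Un.mk k) : ℝ) / m with hu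
  set v : ℝ := (g2 (a, Un.mk k) : ℝ) / m with hv
  have e3 : (g1 (a, Un.mk k) : ℝ) * g2 (a, Un.mk k) / (m * m) = u * v := by
    rw [hu, hv]; ring
  rw [e3]
  have h3 : f a * h a - u * v = f a * (h a - v) + (f a - u) * v := by ring
  have hε : (0 : ℝ) < 1 / m := by positivity
  have hε1 : (1 : ℝ) / m ≤ 1 := by
    rw [div_le_one hm0, hm]
    have : (0 : ℝ) ≤ (k + 1) * ((B1 a : ℝ) + B2 a + 1) := by positivity
    linarith
  have h4 : |v| ≤ B2 a + 1 := by
    have h5 := abs_sub_abs_le_abs_sub v (h a)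
    rw [abs_sub_comm] at h5
    linarith [h2 a]
  rw [h3]
  refine (abs_add_le _ _).trans ?_
  rw [abs_mul, abs_mul]
  have h6 : |f a| * |h a - v| ≤ B1 a * (1 / m) :=
    mul_le_mul (h1 a) e2 (abs_nonneg _) (by positivity)
  have h7 : |f a - u| * |v| ≤ (1 / m) * (B2 a + 1) :=
    mul_le_mul e1 h4 (abs_nonneg _) (by positivity)
  calc |f a| * |h a - v| + |f a - u| * |v|
      ≤ ((B1 a : ℝ) + B2 a + 1) * (1 / m) := by linarith
    _ ≤ 1 / (k + 1) := by
        rw [mul_one_div, div_le_div_iff₀ hm0 (by positivity), hm]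
        linarith

/-- Multiplication by a polynomially bounded precise function. -/
theorem PTW.mulConst {f : α → ℝ} (hf : PTW f) (q : ℚ) : PTW (fun a => (q : ℝ) * f a) := by
  set C : ℕ := ⌈|(q : ℝ)|⌉₊ with hC
  have hqC : |(q : ℝ)| ≤ C := Nat.le_ceil _
  have hκ : PT ∅ (fun p : α × Un => C * (p.2.v + 1)) :=
    (PT.const C).mul (PT_precv.add (PT.const 1))
  have hκb : PBd (fun p : α × Un => C * (p.2.v + 1)) :=
    (PBd.const C).mul (PBd_precv.add (PBd.const 1))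
  obtain ⟨g, hg, hg'⟩ := hf.approx PT.fst' hκ hκb
  refine PTW.intro (n := fun p => q.num * g p) (d := fun p => q.den * (C * (p.2.v + 1) + 1))
    (PT.intMul (PT.const _) hg) ((PT.const _).mul (hκ.add (PT.const 1)))
    (fun p => by have := q.den_pos; positivity) fun a k => ?_
  have e1 := hg' (a, Un.mk k)
  simp only at e1 ⊢
  push_cast at e1 ⊢
  have e2 : (q.num : ℝ) * (g (a, Un.mk k) : ℝ) / (q.den * (C * (k + 1) + 1)) =
      q * ((g (a, Un.mk k) : ℝ) / (C * (k + 1) + 1)) := by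
    rw [mul_div_mul_comm]
    congr 1
    exact_mod_cast Rat.num_div_den q
  rw [e2, ← mul_sub, abs_mul]
  calc |(q : ℝ)| * |f a - (g (a, Un.mk k) : ℝ) / (C * (k + 1) + 1)|
      ≤ C * (1 / (C * (k + 1) + 1)) := mul_le_mul hqC e1 (abs_nonneg _) (by positivity)
    _ ≤ 1 / (k + 1) := by
        rw [mul_one_div, div_le_div_iff₀ (by positivity) (by positivity)]
        linarith

/-- The inverse of a function with a polynomial lower bound. -/
theorem PTW.inv {f : α → ℝ} (hf : PTW f) {c : α → ℕ} (hc : PT ∅ c) (hcb : PBd c)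
    (h : ∀ a, 1 / (c a : ℝ) ≤ |f a|) (hc0 : ∀ a, 0 < c a) : PTW (fun a => (f a)⁻¹) := by
  have hc' : PT ∅ (fun p : α × Un => c p.1) := hc.comp PT.fst'
  have hcb' : PBd (fun p : α × Un => c p.1) := hcb.comp (A := ∅) PT.fst'
  have hκ : PT ∅ (fun p : α × Un => 2 * (p.2.v + 1) * (c p.1 * c p.1)) :=
    ((PT.const 2).mul (PT_precv.add (PT.const 1))).mul (hc'.mul hc')
  have hκb : PBd (fun p : α × Un => 2 * (p.2.v + 1) * (c p.1 * c p.1)) :=
    ((PBd.const 2).mul (PBd_precv.add (PBd.const 1))).mul (hcb'.mul hcb')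
  obtain ⟨g, hg, hg'⟩ := hf.approx PT.fst' hκ hκb
  have hD : PT ∅ (fun p : α × Un => 2 * (p.2.v + 1) * (c p.1 * c p.1) + 1) := hκ.add (PT.const 1)
  have hs : PT ∅ (fun p : α × Un =>
      if g p < 0 then -((2 * (p.2.v + 1) * (c p.1 * c p.1) + 1 : ℕ) : ℤ) else
        ((2 * (p.2.v + 1) * (c p.1 * c p.1) + 1 : ℕ) : ℤ)) :=
    PT.ite hg.intNeg? hD.natCast.intNeg hD.natCast
  have hab : PT ∅ (fun p : α × Un => Max.max (g p).natAbs 1) := (hg.natAbs).max (PT.const 1)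
  refine PTW.intro hs hab (fun p => by positivity) fun a k => ?_
  have h1 := hg' (a, Un.mk k)
  simp only at h1 ⊢
  set G := g (a, Un.mk k) with hG
  set M : ℕ := 2 * (k + 1) * (c a * c a) + 1 with hM
  have hM' : ((2 * (k + 1) * (c a * c a) : ℕ) : ℝ) + 1 = (M : ℝ) := by
    rw [hM]; push_cast; ring
  rw [hM'] at h1
  have hMpos : (0 : ℝ) < M := by rw [← hM']; positivity
  have hcpos : (0 : ℝ) < c a := by exact_mod_cast hc0 a
  have hcge : (1 : ℝ) ≤ c a := by exact_mod_cast hc0 a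
  set u : ℝ := (G : ℝ) / M with hu
  have hMle : (2 : ℝ) * (k + 1) * (c a * c a) ≤ M := by
    rw [← hM']; push_cast; linarith
  have e0 : (1 : ℝ) / M ≤ (1 / 2) * (1 / c a) := by
    have e2 : (1 / 2 : ℝ) * (1 / c a) = 1 / (2 * c a) := by field_simp
    rw [e2]
    refine one_div_le_one_div_of_le (by positivity) (le_trans ?_ hMle)
    have e3 : (2 : ℝ) * c a ≤ 2 * (c a * c a) := by nlinarith
    have e4 : (0 : ℝ) ≤ 2 * k * (c a * c a) := by positivity
    nlinarith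
  have hu0 : (1 / 2) * (1 / (c a : ℝ)) ≤ |u| := by
    have h5 := abs_sub_abs_le_abs_sub (f a) u
    linarith [h a]
  have hupos : 0 < |u| := lt_of_lt_of_le (by positivity) hu0
  have hune : u ≠ 0 := abs_pos.1 hupos
  have hGne : G ≠ 0 := by
    rintro h0
    exact hune (by rw [hu, h0]; simp)
  have hfne : f a ≠ 0 := abs_pos.1 (lt_of_lt_of_le (by positivity) (h a))
  have e1 : ((if G < 0 then -((M : ℕ) : ℤ) else ((M : ℕ) : ℤ) : ℤ) : ℝ) /
      ((Max.max G.natAbs 1 : ℕ) : ℝ) = u⁻¹ := by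
    have hmax : Max.max G.natAbs 1 = G.natAbs := max_eq_left (by omega)
    rw [hmax, hu, inv_div]
    split_ifs with hneg
    · have h6 : ((G.natAbs : ℕ) : ℝ) = -(G : ℝ) := by
        rw [Nat.cast_natAbs, abs_of_neg hneg]
        push_cast
        ring
      rw [h6]
      push_cast
      rw [neg_div_neg_eq]
    · have h6 : ((G.natAbs : ℕ) : ℝ) = (G : ℝ) := by
        rw [Nat.cast_natAbs, abs_of_nonneg (not_lt.1 hneg)]
      rw [h6]
      push_cast
      rfl
  rw [e1, inv_sub_inv hfne hune, abs_div, abs_mul, abs_sub_comm]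
  rw [div_le_iff₀ (mul_pos (abs_pos.2 hfne) hupos)]
  calc |f a - u| ≤ 1 / M := h1
    _ ≤ 1 / (k + 1) * ((1 / (c a : ℝ)) * ((1 / 2) * (1 / (c a : ℝ)))) := by
        rw [show 1 / ((k : ℝ) + 1) * ((1 / (c a : ℝ)) * ((1 / 2) * (1 / (c a : ℝ)))) =
          1 / (2 * (k + 1) * (c a * c a)) by field_simp]
        gcongr
    _ ≤ 1 / (k + 1) * (|f a| * |u|) := by
        gcongr
        exact h a

/-- The square root. -/
theorem PTW.sqrt {f : α → ℝ} (hf : PTW f) : PTW (fun a => √(f a)) := by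
  -- precision `1 / (16 (k + 1) ^ 2)`
  have hq : PT ∅ (fun p : α × Un => 4 * (p.2.v + 1)) :=
    (PT.const 4).mul (PT_precv.add (PT.const 1))
  have hqb : PBd (fun p : α × Un => 4 * (p.2.v + 1)) :=
    (PBd.const 4).mul (PBd_precv.add (PBd.const 1))
  have hκ : PT ∅ (fun p : α × Un => (4 * (p.2.v + 1)) * (4 * (p.2.v + 1)) - 1) :=
    (hq.mul hq).sub (PT.const 1)
  have hκb : PBd (fun p : α × Un => (4 * (p.2.v + 1)) * (4 * (p.2.v + 1)) - 1) :=
    (hqb.mul hqb).mono fun _ => Nat.sub_le _ _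
  obtain ⟨g, hg, hg'⟩ := hf.approx PT.fst' hκ hκb
  refine PTW.intro (n := fun p => ((Nat.sqrt (g p).toNat : ℕ) : ℤ))
    (d := fun p => 4 * (p.2.v + 1)) (PT.natCast (PT.sqrt hg.posPart)) hq
    (fun p => by positivity) fun a k => ?_
  have h1 := hg' (a, Un.mk k)
  simp only at h1 ⊢
  have hN : (((4 * (k + 1)) * (4 * (k + 1)) - 1 : ℕ) : ℝ) + 1 = (4 * (k + 1)) ^ 2 := by
    rw [Nat.cast_sub (by nlinarith)]
    push_cast
    ring
  rw [hN] at h1
  push_cast
  set G := g (a, Un.mk k) with hG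
  set w : ℝ := 4 * ((k : ℝ) + 1) with hw
  have hw0 : 0 < w := by positivity
  set u : ℝ := (G : ℝ) / w ^ 2 with hu
  have e1 : √u = √((G.toNat : ℕ) : ℝ) / w := by
    rcases le_total 0 G with h | h
    · have h3 : ((G.toNat : ℕ) : ℝ) = (G : ℝ) := by exact_mod_cast Int.toNat_of_nonneg h
      rw [hu, h3, Real.sqrt_div' _ (by positivity), Real.sqrt_sq hw0.le]
    · have h3 : G.toNat = 0 := Int.toNat_of_nonpos h
      rw [h3, Real.sqrt_eq_zero_of_nonpos]
      · simp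
      · rw [hu]
        exact div_nonpos_of_nonpos_of_nonneg (by exact_mod_cast h) (by positivity)
  have h3 : |√(f a) - √u| ≤ 1 / w := by
    refine sqrt_sub_le.trans ?_
    rw [Real.sqrt_le_left (by positivity)]
    refine h1.trans (le_of_eq ?_)
    rw [div_pow, one_pow]
  have h4 : |√u - (Nat.sqrt G.toNat : ℝ) / w| ≤ 1 / w := by
    rw [e1, ← sub_div, abs_div, abs_of_pos hw0]
    gcongr
    exact nat_sqrt_err _
  calc |√(f a) - (Nat.sqrt G.toNat : ℝ) / w|
      = |(√(f a) - √u) + (√u - (Nat.sqrt G.toNat : ℝ) / w)| := by ring_nf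
    _ ≤ _ := abs_add_le _ _
    _ ≤ 1 / w + 1 / w := add_le_add h3 h4
    _ ≤ 1 / (k + 1) := by
        rw [hw, ← add_div, div_le_div_iff₀ (by positivity) (by positivity)]
        linarith

/-- Limits with polynomial speed of convergence. -/
theorem PTW.limit {f : α → ℝ} {F : α → ℕ → ℝ} (hF : PTW (fun p : α × Un => F p.1 p.2.v))
    (h : ∀ a k, |f a - F a k| ≤ 1 / (k + 1)) : PTW f := by
  have hκ : PT ∅ (fun p : α × Un => 2 * p.2.v + 1) :=
    ((PT.const 2).mul PT_precv).add (PT.const 1)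
  have hκb : PBd (fun p : α × Un => 2 * p.2.v + 1) :=
    ((PBd.const 2).mul PBd_precv).add (PBd.const 1)
  obtain ⟨g, hg, hg'⟩ := hF.approx (β := α × Un) (κ := fun p => 2 * p.2.v + 1)
    (c := fun p => (p.1, Un.mk (2 * p.2.v + 1))) (PT_prec PT.fst' hκ hκb) hκ hκb
  refine PTW.intro (d := fun p => 2 * p.2.v + 1 + 1) hg (hκ.add (PT.const 1))
    (fun p => by positivity) fun a k => ?_
  have h1 := hg' (a, Un.mk k)
  simp only at h1 ⊢
  push_cast at h1 ⊢
  have h2 := h a (2 * k + 1)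
  push_cast at h2
  calc |f a - (g (a, Un.mk k) : ℝ) / (2 * k + 1 + 1)|
      = |(f a - F a (2 * k + 1)) + (F a (2 * k + 1) - (g (a, Un.mk k) : ℝ) / (2 * k + 1 + 1))| := by
        ring_nf
    _ ≤ _ := abs_add_le _ _
    _ ≤ 1 / (2 * k + 1 + 1) + 1 / (2 * k + 1 + 1) := add_le_add h2 h1
    _ = 1 / (k + 1) := by field_simp; ring

/-- Limits with a polynomially bounded constant. -/
theorem PTW.limit' {f : α → ℝ} {F : α → ℕ → ℝ} (hF : PTW (fun p : α × Un => F p.1 p.2.v))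
    {C : α → ℕ} (hC : PT ∅ C) (hCb : PBd C) (h : ∀ a k, |f a - F a k| ≤ C a / (k + 1)) :
    PTW f := by
  refine PTW.limit (F := fun a k => F a (C a * (k + 1))) ?_ fun a k => ?_
  · have h1 : PT ∅ (fun p : α × Un => C p.1 * (p.2.v + 1)) :=
      (hC.comp PT.fst').mul (PT_precv.add (PT.const 1))
    have h2 : PBd (fun p : α × Un => C p.1 * (p.2.v + 1)) :=
      (hCb.comp (A := ∅) PT.fst').mul (PBd_precv.add (PBd.const 1))
    exact hF.comp (PT_prec PT.fst' h1 h2)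
  · refine (h a _).trans ?_
    push_cast
    rw [div_le_div_iff₀ (by positivity) (by positivity)]
    linarith

/-- Sums of polynomial length, with unary index. -/
theorem PTW.sumUn {n : α → ℕ} (hn : PT ∅ n) (hnb : PBd n) {F : α → ℕ → ℝ}
    (hF : PTW (fun p : α × Un => F p.1 p.2.v)) :
    PTW (fun a => ∑ i ∈ Finset.range (n a), F a i) := by
  have hn' : PT ∅ (fun p : α × Un => n p.1) := hn.comp PT.fst'
  have hnb' : PBd (fun p : α × Un => n p.1) := hnb.comp (A := ∅) PT.fst'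
  have hκ : PT ∅ (fun p : α × Un => n p.1 * (p.2.v + 1)) :=
    hn'.mul (PT_precv.add (PT.const 1))
  have hκb : PBd (fun p : α × Un => n p.1 * (p.2.v + 1)) :=
    hnb'.mul (PBd_precv.add (PBd.const 1))
  obtain ⟨g, hg, hg'⟩ := hF.approx (β := (α × Un) × ℕ)
    (κ := fun q => n q.1.1 * (q.1.2.v + 1))
    (c := fun q => (q.1.1, Un.mk (Min.min q.2 (n q.1.1))))
    (PT.fst'.fst.pair (PT_clampUn hn' hnb').snd) (hκ.comp PT.fst') (hκb.comp (A := ∅) PT.fst')
  refine PTW.intro (n := fun p => ∑ i ∈ Finset.range (n p.1), g (p, i))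
    (d := fun p => n p.1 * (p.2.v + 1) + 1) (PT_intSumRange hn' hnb' hg) (hκ.add (PT.const 1))
    (fun p => by positivity) fun a k => ?_
  simp only
  push_cast
  rw [Finset.sum_div, ← Finset.sum_sub_distrib]
  refine (Finset.abs_sum_le_sum_abs _ _).trans ?_
  have h1 : ∀ i ∈ Finset.range (n a), |F a i - (g ((a, Un.mk k), i) : ℝ) /
      ((n a : ℝ) * (k + 1) + 1)| ≤ 1 / ((n a : ℝ) * (k + 1) + 1) := fun i hi => by
    have h2 := hg' ((a, Un.mk k), i)
    simp only [min_eq_left (Finset.mem_range.1 hi).le] at h2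
    push_cast at h2
    exact h2
  refine (Finset.sum_le_sum h1).trans ?_
  rw [Finset.sum_const, Finset.card_range, nsmul_eq_mul, mul_one_div,
    div_le_div_iff₀ (by positivity) (by positivity)]
  linarith

/-- The exponential of a function with polynomially bounded exponential. -/
theorem PTW.exp {f : α → ℝ} (hf : PTW f) {B E : α → ℕ} (hB : PT ∅ B) (hBb : PBd B)
    (hE : PT ∅ E) (hEb : PBd E) (h : ∀ a, |f a| ≤ B a) (h' : ∀ a, Real.exp (f a) ≤ E a) :
    PTW (fun a => Real.exp (f a)) := by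
  -- the approximations of `f` with precision `1 / (8 E (k + 1) + 8)`
  have hE' : PT ∅ (fun p : α × Un => E p.1) := hE.comp PT.fst'
  have hEb' : PBd (fun p : α × Un => E p.1) := hEb.comp (A := ∅) PT.fst'
  have hκ : PT ∅ (fun p : α × Un => 8 * (E p.1 + 1) * (p.2.v + 1)) :=
    ((PT.const 8).mul (hE'.add (PT.const 1))).mul (PT_precv.add (PT.const 1))
  have hκb : PBd (fun p : α × Un => 8 * (E p.1 + 1) * (p.2.v + 1)) :=
    ((PBd.const 8).mul (hEb'.add (PBd.const 1))).mul (PBd_precv.add (PBd.const 1))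
  obtain ⟨g, hg, hg'⟩ := hf.approx PT.fst' hκ hκb
  have h1 : PTR (fun p : α × Un => Real.exp ((g p : ℝ) /
      ((8 * (E p.1 + 1) * (p.2.v + 1) + 1 : ℕ) : ℝ))) := by
    refine PTR.exp (B := fun p => B p.1 + 1) (PTR.ofFrac hg (hκ.add (PT.const 1)))
      ((hB.comp PT.fst').add (PT.const 1)) ((hBb.comp (A := ∅) PT.fst').add (PBd.const 1))
      fun p => ?_
    have h2 := hg' p
    push_cast at h2 ⊢
    have h3 := abs_sub_abs_le_abs_sub ((g p : ℝ) / (8 * ((E p.1 : ℝ) + 1) * (p.2.v + 1) + 1)) (f p.1)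
    rw [abs_sub_comm] at h3
    have h4 : (1 : ℝ) / (8 * ((E p.1 : ℝ) + 1) * (p.2.v + 1) + 1) ≤ 1 := by
      rw [div_le_one (by positivity)]
      have : (0 : ℝ) ≤ 8 * ((E p.1 : ℝ) + 1) * (p.2.v + 1) := by positivity
      linarith
    linarith [h p.1]
  have h2 : PTW (fun p : α × Un => Real.exp ((g p : ℝ) /
      ((8 * (E p.1 + 1) * (p.2.v + 1) + 1 : ℕ) : ℝ))) := h1.toPTW
  refine PTW.limit (F := fun a k => Real.exp ((g (a, Un.mk k) : ℝ) /
      ((8 * (E a + 1) * (k + 1) + 1 : ℕ) : ℝ))) h2 fun a k => ?_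
  have h3 := hg' (a, Un.mk k)
  simp only at h3
  push_cast at h3 ⊢
  set m : ℝ := 8 * ((E a : ℝ) + 1) * (k + 1) + 1 with hm
  have hm0 : 0 < m := by positivity
  set u : ℝ := (g (a, Un.mk k) : ℝ) / m with hu
  have hm1 : 1 / m ≤ 1 := by
    rw [div_le_one hm0, hm]
    have : (0 : ℝ) ≤ 8 * ((E a : ℝ) + 1) * (k + 1) := by positivity
    linarith
  have h4 : |u - f a| ≤ 1 := by rw [abs_sub_comm]; exact h3.trans hm1
  have h5 : |Real.exp (u - f a) - 1| ≤ 2 * |u - f a| := by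
    have := Real.abs_exp_sub_one_le h4
    exact this
  have h6 : Real.exp (f a) - Real.exp u = -(Real.exp (f a) * (Real.exp (u - f a) - 1)) := by
    rw [mul_sub, ← Real.exp_add]
    ring_nf
  rw [h6, abs_neg, abs_mul, abs_of_pos (Real.exp_pos _)]
  calc Real.exp (f a) * |Real.exp (u - f a) - 1| ≤ E a * (2 * (1 / m)) := by
        refine mul_le_mul (h' a) (h5.trans ?_) (abs_nonneg _) (by positivity)
        rw [abs_sub_comm]
        gcongr
    _ ≤ 1 / (k + 1) := by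
        rw [show (E a : ℝ) * (2 * (1 / m)) = (2 * E a) / m by ring,
          div_le_div_iff₀ hm0 (by positivity), hm]
        nlinarith [show (0 : ℝ) ≤ (E a : ℝ) * (k + 1) by positivity]

end Vale.Agent.P370.H855
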