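import Vale.Agent.P370.H855.Inst

/-!
More closure properties: rational arithmetic in the typed layer, the exponential of a function
bounded above.
-/

namespace Vale.Agent.P370.H855

open Vale.Agent.Lib.PolyTime Function

variable {α β γ : Type*} [Enc α] [Enc β] [Enc γ]

/-! ### Rational arithmetic -/

theorem PT_ratOfInt {f : α → ℤ} (hf : PT ∅ f) : PT ∅ (fun a => (f a : ℚ)) :=
  (PT_divRat hf (PT.const 1) fun _ => one_pos).congr fun a => by push_cast; ring

theorem PT_ratOfNat {f : α → ℕ} (hf : PT ∅ f) : PT ∅ (fun a => (f a : ℚ)) :=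
  (PT_ratOfInt hf.natCast).congr fun a => by push_cast; rfl

theorem PT_ratAdd {f g : α → ℚ} (hf : PT ∅ f) (hg : PT ∅ g) : PT ∅ (fun a => f a + g a) :=
  (PT_divRat (PT.intAdd (PT.intMul (PT_ratNum hf) (PT_ratDen hg).natCast)
    (PT.intMul (PT_ratNum hg) (PT_ratDen hf).natCast)) ((PT_ratDen hf).mul (PT_ratDen hg))
    fun a => Nat.mul_pos (f a).den_pos (g a).den_pos).congr fun a => by
      have h1 : ((f a).den : ℚ) ≠ 0 := by exact_mod_cast (f a).den_pos.ne'
      have h2 : ((g a).den : ℚ) ≠ 0 := by exact_mod_cast (g a).den_pos.ne'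
      push_cast
      rw [add_div, mul_div_mul_right _ _ h2, mul_comm ((f a).den : ℚ), mul_div_mul_right _ _ h1,
        Rat.num_div_den, Rat.num_div_den]

theorem PT_ratNeg {f : α → ℚ} (hf : PT ∅ f) : PT ∅ (fun a => -f a) :=
  (PT_divRat (PT_ratNum hf).intNeg (PT_ratDen hf) fun a => (f a).den_pos).congr fun a => by
    push_cast
    rw [neg_div, Rat.num_div_den]

theorem PT_ratSub {f g : α → ℚ} (hf : PT ∅ f) (hg : PT ∅ g) : PT ∅ (fun a => f a - g a) :=
  (PT_ratAdd hf (PT_ratNeg hg)).congr fun a => by ring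

theorem PT_ratMul {f g : α → ℚ} (hf : PT ∅ f) (hg : PT ∅ g) : PT ∅ (fun a => f a * g a) :=
  (PT_divRat (PT.intMul (PT_ratNum hf) (PT_ratNum hg)) ((PT_ratDen hf).mul (PT_ratDen hg))
    fun a => Nat.mul_pos (f a).den_pos (g a).den_pos).congr fun a => by
      push_cast
      rw [mul_div_mul_comm, Rat.num_div_den, Rat.num_div_den]

theorem PT_ratDivNat {f : α → ℚ} {d : α → ℕ} (hf : PT ∅ f) (hd : PT ∅ d) (hd0 : ∀ a, 0 < d a) :
    PT ∅ (fun a => f a / d a) :=
  (PT_divRat (PT_ratNum hf) ((PT_ratDen hf).mul hd)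
    fun a => Nat.mul_pos (f a).den_pos (hd0 a)).congr fun a => by
      push_cast
      rw [← div_div, Rat.num_div_den]

/-! ### The exponential of a function bounded above -/

/-- The exponential of a function bounded above by a polynomially bounded function. -/
theorem PTR.expLe {f : α → ℝ} (hf : PTR f) {B : α → ℕ} (hB : PT ∅ B) (hBb : PBd B)
    (h : ∀ a, f a ≤ B a) : PTR (fun a => Real.exp (f a)) := by
  refine PTR.limit (F := fun a k => Real.exp (Max.max (f a) (-((k : ℝ) + 1)))) ?_ fun a k => ?_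
  · have h1 : PTR (fun p : α × Un => Max.max (f p.1) (-((p.2.v : ℝ) + 1))) :=
      PTR.max (hf.comp PT.fst') ((PTR.ofNat PT_precv).add PTR.one).neg
    refine PTR.exp h1 (B := fun p => B p.1 + (p.2.v + 1)) ((hB.comp PT.fst').add
      (PT_precv.add (PT.const 1))) ((hBb.comp (A := ∅) PT.fst').add (PBd_precv.add (PBd.const 1)))
      fun p => ?_
    push_cast
    have h2 := h p.1
    have h3 : (0 : ℝ) ≤ B p.1 := Nat.cast_nonneg _
    have h4 : (0 : ℝ) ≤ p.2.v := Nat.cast_nonneg _
    rw [abs_le]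
    constructor
    · have := le_max_right (f p.1) (-((p.2.v : ℝ) + 1))
      linarith
    · exact max_le (by linarith) (by linarith)
  · rcases le_total (-((k : ℝ) + 1)) (f a) with h1 | h1
    · rw [max_eq_left h1, sub_self, abs_zero]
      positivity
    · rw [max_eq_right h1, abs_sub_comm, abs_of_nonneg (sub_nonneg.2 (Real.exp_le_exp.2 h1))]
      have h2 : Real.exp (-((k : ℝ) + 1)) ≤ 1 / 2 ^ k := by
        rw [Real.exp_neg, one_div]
        gcongr
        have h3 : (2 : ℝ) ≤ Real.exp 1 := by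
          have := Real.add_one_le_exp (1 : ℝ)
          linarith
        calc (2 : ℝ) ^ k ≤ Real.exp 1 ^ k := by gcongr
          _ = Real.exp k := by rw [← Real.exp_nat_mul, mul_one]
          _ ≤ Real.exp (k + 1) := Real.exp_le_exp.2 (by linarith)
      linarith [Real.exp_pos (f a)]

/-- `exp (-f)` for `f ≥ 0`. -/
theorem PTR.expNeg {f : α → ℝ} (hf : PTR f) (h : ∀ a, 0 ≤ f a) :
    PTR (fun a => Real.exp (-f a)) :=
  PTR.expLe hf.neg (B := fun _ => 0) (PT.const 0) (PBd.const 0) fun a => by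
    have := h a
    push_cast
    linarith

/-! ### Multiplication of weak approximations -/

/-- Multiplication by a natural number. -/
theorem PTW.natMul {f : α → ℝ} (hf : PTW f) {B : α → ℕ} (hB : PT ∅ B) (hBb : PBd B) :
    PTW (fun a => (B a : ℝ) * f a) := by
  have hB' : PT ∅ (fun p : α × Un => B p.1) := hB.comp PT.fst'
  have hκ : PT ∅ (fun p : α × Un => B p.1 * (p.2.v + 1)) := hB'.mul (PT_precv.add (PT.const 1))
  have hκb : PBd (fun p : α × Un => B p.1 * (p.2.v + 1)) :=
    (hBb.comp (A := ∅) PT.fst').mul (PBd_precv.add (PBd.const 1))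
  obtain ⟨g, hg, hg'⟩ := hf.approx PT.fst' hκ hκb
  refine PTW.intro (n := fun p => B p.1 * g p) (d := fun p => B p.1 * (p.2.v + 1) + 1)
    (PT.intMul hB'.natCast hg) (hκ.add (PT.const 1)) (fun p => by positivity) fun a k => ?_
  have e1 := hg' (a, Un.mk k)
  simp only at e1 ⊢
  push_cast at e1 ⊢
  rw [mul_div_assoc, ← mul_sub, abs_mul, Nat.abs_cast]
  calc (B a : ℝ) * |f a - (g (a, Un.mk k) : ℝ) / (B a * (k + 1) + 1)|
      ≤ B a * (1 / (B a * (k + 1) + 1)) := by gcongr
    _ ≤ 1 / (k + 1) := by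
        rw [mul_one_div, div_le_div_iff₀ (by positivity) (by positivity)]
        linarith

/-- Multiplication by a polynomially bounded precise function. -/
theorem PTW.mulPTR {f h : α → ℝ} (hf : PTW f) (hh : PTR h) {B2 : α → ℕ} (hB2 : PT ∅ B2)
    (hB2b : PBd B2) (h2 : ∀ a, |h a| ≤ B2 a) {B1 : α → ℕ} (hB1 : PT ∅ B1) (hB1b : PBd B1)
    (h1 : ∀ a, |f a| ≤ B1 a) : PTW (fun a => f a * h a) :=
  hf.mul hh.toPTW hB1 hB1b hB2 hB2b h1 h2

end Vale.Agent.P370.H855
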