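import Vale.Agent.P049.TS.Alg.IntPT
import Vale.Agent.Lib.PCP.PT.Arith
import Vale.Agent.Lib.PolyTime.Unary

/-!
Real-valued functions which can be approximated in polynomial time, with exponentially small error
(`PTR`, precision `2 ^ (-k)`, `k` in unary) or with polynomially small error (`PTW`, precision
`1 / (k + 1)`, `k` in unary). Basic closure properties.
-/

namespace Vale.Agent.P370.H855

open Vale.Agent.Lib.PolyTime Function

variable {α β γ : Type*} [Enc α] [Enc β] [Enc γ]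

/-! ### Integers -/

/-- Power of an integer with a polynomially bounded exponent. -/
theorem PT_intPow {f : α → ℤ} {e : α → ℕ} (hf : PT ∅ f) (he : PT ∅ e) (hb : PBd e) :
    PT ∅ (fun a => f a ^ e a) := by
  have h1 : PT ∅ (fun a => (((f a).natAbs ^ e a : ℕ) : ℤ)) := PT.natCast (hf.natAbs.pow he hb)
  refine (PT.ite (p := fun a => f a < 0 ∧ e a % 2 = 1) (PT.decide_and hf.intNeg? he.odd)
    h1.intNeg h1).congr fun a => ?_
  have h2 : (((f a).natAbs ^ e a : ℕ) : ℤ) = |f a| ^ e a := by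
    rw [Nat.cast_pow, ← Int.abs_eq_natAbs]
  rw [h2]
  by_cases h : f a < 0
  · rw [abs_of_neg h]
    by_cases h' : e a % 2 = 1
    · rw [if_pos ⟨h, h'⟩, Odd.neg_pow (Nat.odd_iff.2 h')]
      ring
    · rw [if_neg (by tauto), Even.neg_pow (Nat.even_iff.2 (by omega))]
  · rw [if_neg (by tauto), abs_of_nonneg (not_lt.1 h)]

/-- Sum of a computed integer function over an initial segment. -/
theorem PT_intSumRange {n : α → ℕ} {F : α × ℕ → ℤ} (hn : PT ∅ n) (hnb : PBd n) (hF : PT ∅ F) :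
    PT ∅ (fun a => ∑ i ∈ Finset.range (n a), F (a, i)) :=
  (PT.intSum (PT.map (f := fun a i => F (a, i)) (PT.range hn hnb) hF)).congr fun _ => rfl

/-- Product of a computed integer function over an initial segment. -/
theorem PT_intProdRange {n : α → ℕ} {F : α × ℕ → ℤ} (hn : PT ∅ n) (hnb : PBd n) (hF : PT ∅ F) :
    PT ∅ (fun a => ∏ i ∈ Finset.range (n a), F (a, i)) :=
  (PT.intProd (PT.map (f := fun a i => F (a, i)) (PT.range hn hnb) hF)).congr fun _ => rfl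

/-- Powers of two. -/
theorem PT_twoPow {e : α → ℕ} (he : PT ∅ e) (hb : PBd e) : PT ∅ (fun a => (2 : ℕ) ^ e a) :=
  (PT.const 2).pow he hb

/-- Rounding of a fraction. -/
def rdiv (n : ℤ) (d : ℕ) : ℤ := (2 * n + d) / (2 * d)

theorem PT_rdiv {n : α → ℤ} {d : α → ℕ} (hn : PT ∅ n) (hd : PT ∅ d) :
    PT ∅ (fun a => rdiv (n a) (d a)) :=
  PT.intDiv (PT.intAdd (PT.intMul (PT.const 2) hn) hd.natCast)
    (PT.intMul (PT.const 2) hd.natCast)

theorem rdiv_err {n : ℤ} {d : ℕ} (hd : 0 < d) : |(n : ℝ) / d - rdiv n d| ≤ 1 / 2 := by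
  have hd' : (0 : ℝ) < d := by exact_mod_cast hd
  have h1 : rdiv n d * (2 * d) ≤ 2 * n + d := Int.ediv_mul_le _ (by omega)
  have h2 : 2 * n + d < (rdiv n d + 1) * (2 * d) := Int.lt_ediv_add_one_mul_self _ (by omega)
  have h1' : (rdiv n d : ℝ) * (2 * d) ≤ 2 * n + d := by exact_mod_cast h1
  have h2' : (2 : ℝ) * n + d < (rdiv n d + 1) * (2 * d) := by exact_mod_cast h2
  rw [abs_le]
  constructor
  · rw [neg_le_sub_iff_le_add, div_add' _ _ _ hd'.ne', le_div_iff₀ hd']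
    nlinarith
  · rw [sub_le_iff_le_add, div_le_iff₀ hd']
    nlinarith

/-! ### Unary precision -/

theorem PT_prec {κ : β → ℕ} {c : β → α} (hc : PT ∅ c) (hκ : PT ∅ κ) (hκb : PBd κ) :
    PT ∅ (fun b => (c b, Un.mk (κ b))) := hc.pair (PT.mkUn hκ hκb)

theorem PT_precv : PT ∅ (fun p : α × Un => p.2.v) := PT.snd'.unVal

theorem PBd_precv : PBd (fun p : α × Un => p.2.v) := PBd.unVal (A := ∅) PT.snd'

/-! ### Exponentially precise approximation -/

/-- `f` can be computed with error `2 ^ (-k)` in time polynomial in the size of the argument and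
in `k`. -/
def PTR (f : α → ℝ) : Prop :=
  ∃ g : α × Un → ℤ, PT ∅ g ∧ ∀ a k, |f a - (g (a, Un.mk k) : ℝ) / 2 ^ k| ≤ 1 / 2 ^ k

/-- It suffices to compute a fraction. -/
theorem PTR.intro {f : α → ℝ} {n : α × Un → ℤ} {d : α × Un → ℕ} (hn : PT ∅ n) (hd : PT ∅ d)
    (hd0 : ∀ p, 0 < d p) (h : ∀ a k, |f a - (n (a, Un.mk k) : ℝ) / d (a, Un.mk k)| ≤ 1 / 2 ^ k) :
    PTR f := by
  have hp : PT ∅ (fun p : α × Un => (p.1, Un.mk (p.2.v + 1))) :=
    PT_prec PT.fst' (PT_precv.add (PT.const 1)) (PBd_precv.add (PBd.const 1))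
  refine ⟨fun p => rdiv (2 ^ p.2.v * n (p.1, Un.mk (p.2.v + 1))) (d (p.1, Un.mk (p.2.v + 1))),
    PT_rdiv ?_ (hd.comp hp), fun a k => ?_⟩
  · refine (PT.intMul (PT_twoPow PT_precv PBd_precv).natCast (hn.comp hp)).congr fun p => ?_
    push_cast
    rfl
  · simp only
    set N := n (a, Un.mk (k + 1)) with hN
    set D := d (a, Un.mk (k + 1)) with hD
    have hk : (0 : ℝ) < 2 ^ k := by positivity
    have h1 := rdiv_err (n := 2 ^ k * N) (hd0 (a, Un.mk (k + 1)))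
    rw [← hD] at h1
    push_cast at h1
    have h2 := h a (k + 1)
    rw [← hN, ← hD] at h2
    have h3 : f a - (rdiv (2 ^ k * N) D : ℝ) / 2 ^ k =
        (f a - (N : ℝ) / D) + ((2 ^ k * (N : ℝ)) / D - rdiv (2 ^ k * N) D) / 2 ^ k := by
      have hD' : (D : ℝ) ≠ 0 := by exact_mod_cast (hd0 (a, Un.mk (k + 1))).ne'
      field_simp
      ring
    rw [h3]
    refine (abs_add_le _ _).trans ?_
    rw [abs_div, abs_of_pos hk]
    have h4 : |2 ^ k * (N : ℝ) / D - rdiv (2 ^ k * N) D| / 2 ^ k ≤ (1 / 2) / 2 ^ k := by gcongr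
    have h5 : (1 : ℝ) / 2 ^ (k + 1) + (1 / 2) / 2 ^ k = 1 / 2 ^ k := by
      rw [pow_succ]; field_simp; ring
    linarith

theorem PTR.congr {f g : α → ℝ} (hf : PTR f) (h : ∀ a, f a = g a) : PTR g := by
  have : f = g := funext h
  rwa [← this]

theorem PTR.comp {f : α → ℝ} {h : β → α} (hf : PTR f) (hh : PT ∅ h) : PTR (fun b => f (h b)) := by
  obtain ⟨g, hg, hg'⟩ := hf
  exact ⟨fun p => g (h p.1, p.2), hg.comp ((hh.comp PT.fst').pair PT.snd'), fun b k => hg' (h b) k⟩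

/-- A bound for the absolute value. -/
theorem PTR.bound {f : α → ℝ} (hf : PTR f) :
    ∃ b : α → ℕ, PT ∅ b ∧ PBd b ∧ ∀ a, |f a| ≤ 2 ^ b a := by
  obtain ⟨g, hg, hg'⟩ := hf
  have h1 : PT ∅ (fun a => (g (a, Un.mk 0)).natAbs + 1) :=
    ((hg.comp (PT.id.pair (PT.const (Un.mk 0)))).natAbs).add (PT.const 1)
  refine ⟨fun a => Nat.size ((g (a, Un.mk 0)).natAbs + 1), h1.natSize,
    h1.pbd.mono fun a => by rw [esize_nat], fun a => ?_⟩
  have h2 := hg' a 0
  simp only [pow_zero, div_one] at h2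
  have h3 : |f a| ≤ |(g (a, Un.mk 0) : ℝ)| + 1 := by
    have h4 := abs_sub_abs_le_abs_sub (f a) (g (a, Un.mk 0) : ℝ)
    linarith
  have h5 : (((g (a, Un.mk 0)).natAbs + 1 : ℕ) : ℝ) ≤ 2 ^ Nat.size ((g (a, Un.mk 0)).natAbs + 1) := by
    exact_mod_cast (Nat.lt_size_self _).le
  refine h3.trans (le_trans (le_of_eq ?_) h5)
  push_cast
  rw [Nat.cast_natAbs]
  push_cast
  rfl

/-- The approximation at a chosen precision. -/
theorem PTR.approx {f : α → ℝ} (hf : PTR f) {κ : β → ℕ} {c : β → α} (hc : PT ∅ c)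
    (hκ : PT ∅ κ) (hκb : PBd κ) :
    ∃ g : β → ℤ, PT ∅ g ∧ ∀ b, |f (c b) - (g b : ℝ) / 2 ^ κ b| ≤ 1 / 2 ^ κ b := by
  obtain ⟨g, hg, hg'⟩ := hf
  exact ⟨fun b => g (c b, Un.mk (κ b)), hg.comp (PT_prec hc hκ hκb), fun b => hg' _ _⟩

/-! ### Closure properties -/

theorem PTR.ofInt {f : α → ℤ} (hf : PT ∅ f) : PTR (fun a => (f a : ℝ)) :=
  PTR.intro (n := fun p => f p.1) (d := fun _ => 1) (hf.comp PT.fst') (PT.const 1)
    (fun _ => one_pos) fun a k => by simp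

theorem PTR.ofNat {f : α → ℕ} (hf : PT ∅ f) : PTR (fun a => (f a : ℝ)) :=
  (PTR.ofInt hf.natCast).congr fun a => by push_cast; rfl

theorem PTR.ofFrac {n : α → ℤ} {d : α → ℕ} (hn : PT ∅ n) (hd : PT ∅ d) :
    PTR (fun a => (n a : ℝ) / d a) := by
  have h0 : PT ∅ (fun a => decide (d a = 0)) := PT.eqNat hd (PT.const 0)
  have hn' : PT ∅ (fun a => if d a = 0 then 0 else n a) := PT.ite h0 (PT.const 0) hn
  have hd' : PT ∅ (fun a => if d a = 0 then 1 else d a) := PT.ite h0 (PT.const 1) hd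
  refine PTR.intro (n := fun p => if d p.1 = 0 then 0 else n p.1)
    (d := fun p => if d p.1 = 0 then 1 else d p.1) (hn'.comp PT.fst') (hd'.comp PT.fst')
    (fun p => by split_ifs <;> omega) fun a k => ?_
  have : (n a : ℝ) / d a = ((if d a = 0 then 0 else n a : ℤ) : ℝ) / ((if d a = 0 then 1 else d a : ℕ) : ℝ) := by
    split_ifs with h
    · simp [h]
    · rfl
  rw [this]
  simp

theorem PTR.constRat (q : ℚ) : PTR (fun _ : α => (q : ℝ)) :=
  (PTR.ofFrac (PT.const q.num) (PT.const q.den)).congr fun _ => by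
    exact_mod_cast Rat.num_div_den q

theorem PTR.constNat (q : ℕ) : PTR (fun _ : α => (q : ℝ)) := PTR.ofNat (PT.const q)

theorem PTR.zero : PTR (fun _ : α => (0 : ℝ)) := (PTR.constNat 0).congr fun _ => by simp

theorem PTR.one : PTR (fun _ : α => (1 : ℝ)) := (PTR.constNat 1).congr fun _ => by simp

theorem PTR.neg {f : α → ℝ} (hf : PTR f) : PTR (fun a => -f a) := by
  obtain ⟨g, hg, hg'⟩ := hf
  refine ⟨fun p => - g p, hg.intNeg, fun a k => ?_⟩
  have := hg' a k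
  rw [← abs_neg] at this
  convert this using 2
  push_cast
  ring

theorem PTR.add {f h : α → ℝ} (hf : PTR f) (hh : PTR h) : PTR (fun a => f a + h a) := by
  have hκ : PT ∅ (fun p : α × Un => p.2.v + 1) := PT_precv.add (PT.const 1)
  have hκb : PBd (fun p : α × Un => p.2.v + 1) := PBd_precv.add (PBd.const 1)
  obtain ⟨g1, hg1, hg1'⟩ := hf.approx PT.fst' hκ hκb
  obtain ⟨g2, hg2, hg2'⟩ := hh.approx PT.fst' hκ hκb
  refine PTR.intro (n := fun p => g1 p + g2 p) (d := fun p => 2 ^ (p.2.v + 1))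
    (PT.intAdd hg1 hg2) (PT_twoPow hκ hκb) (fun p => by positivity) fun a k => ?_
  have h1 := hg1' (a, Un.mk k)
  have h2 := hg2' (a, Un.mk k)
  simp only at h1 h2 ⊢
  push_cast
  have h3 : f a + h a - ((g1 (a, Un.mk k) : ℝ) + g2 (a, Un.mk k)) / 2 ^ (k + 1) =
      (f a - (g1 (a, Un.mk k) : ℝ) / 2 ^ (k + 1)) +
        (h a - (g2 (a, Un.mk k) : ℝ) / 2 ^ (k + 1)) := by ring
  rw [h3]
  refine (abs_add_le _ _).trans ((add_le_add h1 h2).trans (le_of_eq ?_))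
  rw [pow_succ]; field_simp; norm_num

theorem PTR.sub {f h : α → ℝ} (hf : PTR f) (hh : PTR h) : PTR (fun a => f a - h a) :=
  (hf.add hh.neg).congr fun a => by ring

theorem PTR.mul {f h : α → ℝ} (hf : PTR f) (hh : PTR h) : PTR (fun a => f a * h a) := by
  obtain ⟨b1, hb1, hb1b, hb1'⟩ := hf.bound
  obtain ⟨b2, hb2, hb2b, hb2'⟩ := hh.bound
  have hκ : PT ∅ (fun p : α × Un => p.2.v + b1 p.1 + b2 p.1 + 2) :=
    ((PT_precv.add (hb1.comp PT.fst')).add (hb2.comp PT.fst')).add (PT.const 2)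
  have hκb : PBd (fun p : α × Un => p.2.v + b1 p.1 + b2 p.1 + 2) :=
    ((PBd_precv.add (hb1b.comp (A := ∅) PT.fst')).add (hb2b.comp (A := ∅) PT.fst')).add
      (PBd.const 2)
  obtain ⟨g1, hg1, hg1'⟩ := hf.approx PT.fst' hκ hκb
  obtain ⟨g2, hg2, hg2'⟩ := hh.approx PT.fst' hκ hκb
  have hD : PT ∅ (fun p : α × Un => 2 ^ (p.2.v + b1 p.1 + b2 p.1 + 2)) := PT_twoPow hκ hκb
  refine PTR.intro (n := fun p => g1 p * g2 p)
    (d := fun p => 2 ^ (p.2.v + b1 p.1 + b2 p.1 + 2) * 2 ^ (p.2.v + b1 p.1 + b2 p.1 + 2))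
    (PT.intMul hg1 hg2) (hD.mul hD) (fun p => by positivity) fun a k => ?_
  have h1 := hg1' (a, Un.mk k)
  have h2 := hg2' (a, Un.mk k)
  simp only at h1 h2 ⊢
  push_cast
  set m := k + b1 a + b2 a + 2 with hm
  set u : ℝ := (g1 (a, Un.mk k) : ℝ) / 2 ^ m with hu
  set v : ℝ := (g2 (a, Un.mk k) : ℝ) / 2 ^ m with hv
  have e1 : (g1 (a, Un.mk k) : ℝ) * g2 (a, Un.mk k) / (2 ^ m * 2 ^ m) = u * v := by
    rw [hu, hv]; ring
  rw [e1]
  have h3 : f a * h a - u * v = f a * (h a - v) + (f a - u) * v := by ring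
  have hε : (0 : ℝ) < 1 / 2 ^ m := by positivity
  have hε1 : (1 : ℝ) / 2 ^ m ≤ 1 := by
    rw [div_le_one (by positivity)]
    exact one_le_pow₀ (by norm_num)
  have h4 : |v| ≤ 2 ^ b2 a + 1 := by
    have h5 := abs_sub_abs_le_abs_sub v (h a)
    rw [abs_sub_comm] at h5
    linarith [hb2' a]
  rw [h3]
  refine (abs_add_le _ _).trans ?_
  rw [abs_mul, abs_mul]
  have h6 : |f a| * |h a - v| ≤ 2 ^ b1 a * (1 / 2 ^ m) :=
    mul_le_mul (hb1' a) h2 (abs_nonneg _) (by positivity)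
  have h7 : |f a - u| * |v| ≤ (1 / 2 ^ m) * (2 ^ b2 a + 1) :=
    mul_le_mul h1 h4 (abs_nonneg _) (by positivity)
  have p1 : (1 : ℝ) ≤ 2 ^ b1 a := one_le_pow₀ (by norm_num)
  have p2 : (1 : ℝ) ≤ 2 ^ b2 a := one_le_pow₀ (by norm_num)
  have h8 : (2 : ℝ) ^ b1 a + (2 ^ b2 a + 1) ≤ 4 * (2 ^ b1 a * 2 ^ b2 a) := by nlinarith
  calc |f a| * |h a - v| + |f a - u| * |v|
      ≤ (2 ^ b1 a + (2 ^ b2 a + 1)) * (1 / 2 ^ m) := by linarith
    _ ≤ 4 * (2 ^ b1 a * 2 ^ b2 a) * (1 / 2 ^ m) := by gcongr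
    _ = 1 / 2 ^ k := by
        rw [hm, pow_add, pow_add, pow_add]
        field_simp
        norm_num

/-- The inverse of a function with a lower bound. -/
theorem PTR.inv {f : α → ℝ} (hf : PTR f) {c : α → ℕ} (hc : PT ∅ c) (hcb : PBd c)
    (h : ∀ a, 1 / 2 ^ c a ≤ |f a|) : PTR (fun a => (f a)⁻¹) := by
  have hκ : PT ∅ (fun p : α × Un => p.2.v + 2 * c p.1 + 1) :=
    (PT_precv.add ((PT.const 2).mul (hc.comp PT.fst'))).add (PT.const 1)
  have hκb : PBd (fun p : α × Un => p.2.v + 2 * c p.1 + 1) :=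
    (PBd_precv.add ((PBd.const 2).mul (hcb.comp (A := ∅) PT.fst'))).add (PBd.const 1)
  obtain ⟨g, hg, hg'⟩ := hf.approx PT.fst' hκ hκb
  have hD : PT ∅ (fun p : α × Un => 2 ^ (p.2.v + 2 * c p.1 + 1)) := PT_twoPow hκ hκb
  have hs : PT ∅ (fun p : α × Un =>
      if g p < 0 then -(((2 ^ (p.2.v + 2 * c p.1 + 1) : ℕ)) : ℤ) else
        ((2 ^ (p.2.v + 2 * c p.1 + 1) : ℕ) : ℤ)) :=
    PT.ite hg.intNeg? hD.natCast.intNeg hD.natCast
  have hab : PT ∅ (fun p : α × Un => max (g p).natAbs 1) := (hg.natAbs).max (PT.const 1)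
  refine PTR.intro hs hab (fun p => by positivity) fun a k => ?_
  have h1 := hg' (a, Un.mk k)
  simp only at h1 ⊢
  set m := k + 2 * c a + 1 with hm
  set G := g (a, Un.mk k) with hG
  set u : ℝ := (G : ℝ) / 2 ^ m with hu
  have hc0 : (0 : ℝ) < 1 / 2 ^ c a := by positivity
  have e0 : (1 : ℝ) / 2 ^ m ≤ (1 / 2) * (1 / 2 ^ c a) := by
    rw [hm, show k + 2 * c a + 1 = (k + c a) + c a + 1 by ring, pow_add, pow_add]
    have : (1 : ℝ) ≤ 2 ^ (k + c a) := one_le_pow₀ (by norm_num)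
    rw [div_le_iff₀ (by positivity)]
    field_simp
    linarith
  have hu0 : (1 / 2) * (1 / 2 ^ c a) ≤ |u| := by
    have h5 := abs_sub_abs_le_abs_sub (f a) u
    linarith [h a]
  have hupos : 0 < |u| := lt_of_lt_of_le (by positivity) hu0
  have hune : u ≠ 0 := abs_pos.1 hupos
  have hGne : G ≠ 0 := by
    rintro h0
    exact hune (by rw [hu, h0]; simp)
  have hfne : f a ≠ 0 := abs_pos.1 (lt_of_lt_of_le hc0 (h a))
  have e1 : ((if G < 0 then -(((2 ^ m : ℕ)) : ℤ) else ((2 ^ m : ℕ) : ℤ) : ℤ) : ℝ) /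
      ((max G.natAbs 1 : ℕ) : ℝ) = u⁻¹ := by
    have hmax : max G.natAbs 1 = G.natAbs := max_eq_left (by omega)
    rw [hmax, hu, inv_div]
    split_ifs with hneg
    · have h6 : ((G.natAbs : ℕ) : ℝ) = -(G : ℝ) := by
        rw [Nat.cast_natAbs, abs_of_neg hneg]
        push_cast
        ring
      rw [h6]
      push_cast
      rw [neg_div_neg_eq]
    · have h6 : ((G.natAbs : ℕ) : ℝ) = (G : ℝ) := by
        rw [Nat.cast_natAbs, abs_of_nonneg (not_lt.1 hneg)]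
      rw [h6]
      push_cast
      rfl
  rw [e1, inv_sub_inv hfne hune, abs_div, abs_mul, abs_sub_comm]
  rw [div_le_iff₀ (mul_pos (abs_pos.2 hfne) hupos)]
  calc |f a - u| ≤ 1 / 2 ^ m := h1
    _ = 1 / 2 ^ k * ((1 / 2 ^ c a) * ((1 / 2) * (1 / 2 ^ c a))) := by
        rw [hm, show k + 2 * c a + 1 = k + c a + c a + 1 by ring, pow_add, pow_add, pow_add]
        field_simp
    _ ≤ 1 / 2 ^ k * (|f a| * |u|) := by
        gcongr
        exact h a

theorem PTR.div {f h : α → ℝ} (hf : PTR f) (hh : PTR h) {c : α → ℕ} (hc : PT ∅ c) (hcb : PBd c)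
    (h0 : ∀ a, 1 / 2 ^ c a ≤ |h a|) : PTR (fun a => f a / h a) :=
  (hf.mul (hh.inv hc hcb h0)).congr fun a => by rw [div_eq_mul_inv]

theorem PTR.abs {f : α → ℝ} (hf : PTR f) : PTR (fun a => |f a|) := by
  obtain ⟨g, hg, hg'⟩ := hf
  refine ⟨fun p => |g p|, hg.intAbs, fun a k => ?_⟩
  have h1 := hg' a k
  have h2 : ((|g (a, Un.mk k)| : ℤ) : ℝ) / 2 ^ k = |(g (a, Un.mk k) : ℝ) / 2 ^ k| := by
    rw [abs_div, abs_of_pos (show (0 : ℝ) < 2 ^ k by positivity)]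
    push_cast
    rfl
  rw [h2]
  exact (abs_abs_sub_abs_le _ _).trans h1

theorem PTR.ite {p : α → Prop} [DecidablePred p] (hp : PT ∅ (fun a => decide (p a)))
    {f h : α → ℝ} (hf : PTR f) (hh : PTR h) : PTR (fun a => if p a then f a else h a) := by
  obtain ⟨g1, hg1, hg1'⟩ := hf
  obtain ⟨g2, hg2, hg2'⟩ := hh
  refine ⟨fun q => if p q.1 then g1 q else g2 q, PT.ite (hp.comp PT.fst') hg1 hg2, fun a k => ?_⟩
  by_cases h : p a
  · simpa [h] using hg1' a k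
  · simpa [h] using hg2' a k

theorem PTR.max {f h : α → ℝ} (hf : PTR f) (hh : PTR h) : PTR (fun a => max (f a) (h a)) :=
  (((hf.add hh).add (hf.sub hh).abs).mul (PTR.constRat (1 / 2))).congr fun a => by
    push_cast
    rcases le_total (f a) (h a) with h1 | h1
    · rw [max_eq_right h1, abs_of_nonpos (sub_nonpos.2 h1)]
      ring
    · rw [max_eq_left h1, abs_of_nonneg (sub_nonneg.2 h1)]
      ring

theorem PTR.min {f h : α → ℝ} (hf : PTR f) (hh : PTR h) : PTR (fun a => min (f a) (h a)) :=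
  (((hf.add hh).sub (hf.sub hh).abs).mul (PTR.constRat (1 / 2))).congr fun a => by
    push_cast
    rcases le_total (f a) (h a) with h1 | h1
    · rw [min_eq_left h1, abs_of_nonpos (sub_nonpos.2 h1)]
      ring
    · rw [min_eq_right h1, abs_of_nonneg (sub_nonneg.2 h1)]
      ring

theorem sqrt_sub_le {x y : ℝ} : |√x - √y| ≤ √|x - y| := by
  wlog h : y ≤ x generalizing x y
  · rw [abs_sub_comm, abs_sub_comm x]
    exact this (le_of_not_ge h)
  rw [abs_of_nonneg (sub_nonneg.2 (Real.sqrt_le_sqrt h)), abs_of_nonneg (sub_nonneg.2 h)]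
  rw [sub_le_iff_le_add]
  rcases le_total 0 y with hy | hy
  · rw [Real.sqrt_le_left (by positivity)]
    nlinarith [Real.sq_sqrt (sub_nonneg.2 h), Real.sq_sqrt hy, Real.sqrt_nonneg (x - y),
      Real.sqrt_nonneg y, mul_nonneg (Real.sqrt_nonneg (x - y)) (Real.sqrt_nonneg y)]
  · rw [Real.sqrt_eq_zero_of_nonpos hy, add_zero]
    exact Real.sqrt_le_sqrt (by linarith)

theorem nat_sqrt_err (n : ℕ) : |√(n : ℝ) - Nat.sqrt n| ≤ 1 := by
  have h1 : (Nat.sqrt n : ℝ) ≤ √(n : ℝ) := Real.nat_sqrt_le_real_sqrt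
  have h2 : √(n : ℝ) ≤ Nat.sqrt n + 1 := Real.real_sqrt_le_nat_sqrt_succ
  rw [abs_le]
  constructor <;> linarith

theorem PTR.sqrt {f : α → ℝ} (hf : PTR f) : PTR (fun a => √(f a)) := by
  have hκ0 : PT ∅ (fun p : α × Un => p.2.v + 1) := PT_precv.add (PT.const 1)
  have hκ0b : PBd (fun p : α × Un => p.2.v + 1) := PBd_precv.add (PBd.const 1)
  have hκ : PT ∅ (fun p : α × Un => 2 * (p.2.v + 1)) := (PT.const 2).mul hκ0
  have hκb : PBd (fun p : α × Un => 2 * (p.2.v + 1)) := (PBd.const 2).mul hκ0b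
  obtain ⟨g, hg, hg'⟩ := hf.approx PT.fst' hκ hκb
  refine PTR.intro (n := fun p => ((Nat.sqrt (g p).toNat : ℕ) : ℤ))
    (d := fun p => 2 ^ (p.2.v + 1)) (PT.natCast (PT.sqrt hg.posPart)) (PT_twoPow hκ0 hκ0b)
    (fun p => by positivity) fun a k => ?_
  have h1 := hg' (a, Un.mk k)
  simp only at h1 ⊢
  push_cast
  set G := g (a, Un.mk k) with hG
  set u : ℝ := (G : ℝ) / 2 ^ (2 * (k + 1)) with hu
  have e1 : √u = √((G.toNat : ℕ) : ℝ) / 2 ^ (k + 1) := by
    have h2 : (2 : ℝ) ^ (2 * (k + 1)) = (2 ^ (k + 1)) ^ 2 := by rw [← pow_mul, mul_comm]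
    rcases le_total 0 G with h | h
    · have h3 : ((G.toNat : ℕ) : ℝ) = (G : ℝ) := by exact_mod_cast Int.toNat_of_nonneg h
      rw [hu, h3, h2, Real.sqrt_div' _ (by positivity), Real.sqrt_sq (by positivity)]
    · have h3 : G.toNat = 0 := Int.toNat_of_nonpos h
      rw [h3, Real.sqrt_eq_zero_of_nonpos]
      · simp
      · rw [hu]
        exact div_nonpos_of_nonpos_of_nonneg (by exact_mod_cast h) (by positivity)
  have h3 : |√(f a) - √u| ≤ 1 / 2 ^ (k + 1) := by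
    refine sqrt_sub_le.trans ?_
    rw [Real.sqrt_le_left (by positivity)]
    refine h1.trans (le_of_eq ?_)
    rw [div_pow, one_pow, ← pow_mul, mul_comm]
  have h4 : |√u - (Nat.sqrt G.toNat : ℝ) / 2 ^ (k + 1)| ≤ 1 / 2 ^ (k + 1) := by
    rw [e1, ← sub_div, abs_div, abs_of_pos (show (0 : ℝ) < 2 ^ (k + 1) by positivity)]
    gcongr
    exact nat_sqrt_err _
  calc |√(f a) - (Nat.sqrt G.toNat : ℝ) / 2 ^ (k + 1)|
      = |(√(f a) - √u) + (√u - (Nat.sqrt G.toNat : ℝ) / 2 ^ (k + 1))| := by ring_nf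
    _ ≤ _ := abs_add_le _ _
    _ ≤ 1 / 2 ^ (k + 1) + 1 / 2 ^ (k + 1) := add_le_add h3 h4
    _ = 1 / 2 ^ k := by rw [pow_succ]; field_simp; norm_num

/-- Sums of polynomial length. -/
theorem PTR.sum {n : α → ℕ} (hn : PT ∅ n) (hnb : PBd n) {F : α → ℕ → ℝ}
    (hF : PTR (fun p : α × ℕ => F p.1 p.2)) : PTR (fun a => ∑ i ∈ Finset.range (n a), F a i) := by
  have hs : PT ∅ (fun a => Nat.size (n a)) := hn.natSize
  have hsb : PBd (fun a => Nat.size (n a)) := hn.pbd.mono fun a => by rw [esize_nat]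
  have hκ : PT ∅ (fun p : α × Un => p.2.v + Nat.size (n p.1)) :=
    PT_precv.add (hs.comp PT.fst')
  have hκb : PBd (fun p : α × Un => p.2.v + Nat.size (n p.1)) :=
    PBd_precv.add (hsb.comp (A := ∅) PT.fst')
  obtain ⟨g, hg, hg'⟩ := hF.approx (β := (α × Un) × ℕ)
    (κ := fun q => q.1.2.v + Nat.size (n q.1.1)) (c := fun q => (q.1.1, q.2))
    (PT.fst'.fst.pair PT.snd') (hκ.comp PT.fst') (hκb.comp (A := ∅) PT.fst')
  refine PTR.intro (n := fun p => ∑ i ∈ Finset.range (n p.1), g (p, i))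
    (d := fun p => 2 ^ (p.2.v + Nat.size (n p.1)))
    (PT_intSumRange (hn.comp PT.fst') (hnb.comp (A := ∅) PT.fst') hg) (PT_twoPow hκ hκb)
    (fun p => by positivity) fun a k => ?_
  simp only
  push_cast
  rw [Finset.sum_div, ← Finset.sum_sub_distrib]
  refine (Finset.abs_sum_le_sum_abs _ _).trans ?_
  have h1 : ∀ i ∈ Finset.range (n a), |F a i - (g ((a, Un.mk k), i) : ℝ) /
      2 ^ (k + Nat.size (n a))| ≤ 1 / 2 ^ (k + Nat.size (n a)) := fun i _ =>
    hg' ((a, Un.mk k), i)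
  refine (Finset.sum_le_sum h1).trans ?_
  rw [Finset.sum_const, Finset.card_range, nsmul_eq_mul]
  have h2 : (n a : ℝ) ≤ 2 ^ Nat.size (n a) := by exact_mod_cast (Nat.lt_size_self _).le
  rw [pow_add]
  have h3 : (0 : ℝ) < 2 ^ Nat.size (n a) := by positivity
  have h4 : (n a : ℝ) * (1 / (2 ^ k * 2 ^ Nat.size (n a))) ≤
      2 ^ Nat.size (n a) * (1 / (2 ^ k * 2 ^ Nat.size (n a))) := by gcongr
  refine h4.trans (le_of_eq ?_)
  field_simp

end Vale.Agent.P370.H855
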