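import Vale.Agent.P370.H855.Arith
import Vale.Agent.P370.H198.LatDefs

/-!
The box of lattice points, enumerated by natural numbers.
-/

namespace Vale.Agent.P370.H855

open Vale.Agent.Lib.PolyTime Function Finset

variable {α : Type*} [Enc α]

/-- The lattice point with number `i` in the box `|k j| ≤ K`. -/
def kOf (K i : ℕ) : Fin 3 → ℤ := fun j => ((i / (2 * K + 1) ^ (j : ℕ) % (2 * K + 1) : ℕ) : ℤ) - K

/-- The number of a lattice point. -/
def idx (K : ℕ) (k : Fin 3 → ℤ) : ℕ :=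
  (k 0 + K).toNat + (2 * K + 1) * ((k 1 + K).toNat + (2 * K + 1) * (k 2 + K).toNat)

theorem kOf_mem (K i : ℕ) : kOf K i ∈ H198.box K := by
  simp only [H198.box, Fintype.mem_piFinset, Finset.mem_Icc, kOf]
  intro j
  have h : i / (2 * K + 1) ^ (j : ℕ) % (2 * K + 1) < 2 * K + 1 := Nat.mod_lt _ (by omega)
  omega

theorem mem_box {K : ℕ} {k : Fin 3 → ℤ} : k ∈ H198.box K ↔ ∀ j, -(K : ℤ) ≤ k j ∧ k j ≤ K := by
  simp [H198.box, Fintype.mem_piFinset]

theorem idx_lt {K : ℕ} {k : Fin 3 → ℤ} (hk : k ∈ H198.box K) : idx K k < (2 * K + 1) ^ 3 := by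
  rw [mem_box] at hk
  have h0 := hk 0
  have h1 := hk 1
  have h2 := hk 2
  unfold idx
  set S := 2 * K + 1 with hS
  have a0 : (k 0 + K).toNat + 1 ≤ S := by omega
  have a1 : (k 1 + K).toNat + 1 ≤ S := by omega
  have a2 : (k 2 + K).toNat + 1 ≤ S := by omega
  set x := (k 0 + K).toNat
  set y := (k 1 + K).toNat
  set z := (k 2 + K).toNat
  have b1 : y + S * z + 1 ≤ S * S := by nlinarith
  calc x + S * (y + S * z) < S * (y + S * z + 1) := by nlinarith
    _ ≤ S * (S * S) := Nat.mul_le_mul_left _ b1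
    _ = S ^ 3 := by ring

theorem kOf_idx {K : ℕ} {k : Fin 3 → ℤ} (hk : k ∈ H198.box K) : kOf K (idx K k) = k := by
  rw [mem_box] at hk
  have h0 := hk 0
  have h1 := hk 1
  have h2 := hk 2
  unfold kOf idx
  set S := 2 * K + 1 with hS
  have hSpos : 0 < S := by omega
  have a0 : (k 0 + K).toNat < S := by omega
  have a1 : (k 1 + K).toNat < S := by omega
  have a2 : (k 2 + K).toNat < S := by omega
  set x := (k 0 + K).toNat with hx
  set y := (k 1 + K).toNat with hy
  set z := (k 2 + K).toNat with hz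
  have e0 : (x + S * (y + S * z)) % S = x := by
    rw [Nat.add_mul_mod_self_left, Nat.mod_eq_of_lt a0]
  have e1 : (x + S * (y + S * z)) / S = y + S * z := by
    rw [Nat.add_mul_div_left _ _ hSpos, Nat.div_eq_of_lt a0, zero_add]
  have e2 : (y + S * z) % S = y := by rw [Nat.add_mul_mod_self_left, Nat.mod_eq_of_lt a1]
  have e3 : (y + S * z) / S = z := by
    rw [Nat.add_mul_div_left _ _ hSpos, Nat.div_eq_of_lt a1, zero_add]
  ext j
  fin_cases j
  · simp only [Fin.zero_eta, Fin.isValue, Fin.val_zero, pow_zero, Nat.div_one, e0]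
    omega
  · simp only [Fin.mk_one, Fin.isValue, Fin.val_one, pow_one, e1, e2]
    omega
  · simp only [Fin.reduceFinMk, Fin.isValue, Fin.val_two, pow_two, ← Nat.div_div_eq_div_mul, e1, e3,
      Nat.mod_eq_of_lt a2]
    omega

theorem idx_kOf {K i : ℕ} (hi : i < (2 * K + 1) ^ 3) : idx K (kOf K i) = i := by
  unfold kOf idx
  set S := 2 * K + 1 with hS
  have hSpos : 0 < S := by omega
  simp only [Fin.isValue, Fin.val_zero, pow_zero, Nat.div_one, sub_add_cancel, Int.toNat_natCast,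
    Fin.val_one, pow_one, Fin.val_two, pow_two, ← Nat.div_div_eq_div_mul]
  have h3 : i / S / S % S = i / S / S := by
    apply Nat.mod_eq_of_lt
    rw [Nat.div_div_eq_div_mul, Nat.div_lt_iff_lt_mul (by positivity)]
    calc i < S ^ 3 := hi
      _ = S * (S * S) := by ring
  rw [h3]
  have h1 := Nat.mod_add_div (i / S) S
  have h2 := Nat.mod_add_div i S
  rw [h1, h2]

/-- Sums over the box as sums over an initial segment. -/
theorem sum_box (K : ℕ) (f : (Fin 3 → ℤ) → ℝ) :
    ∑ k ∈ H198.box K, f k = ∑ i ∈ range ((2 * K + 1) ^ 3), f (kOf K i) :=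
  Finset.sum_bij' (fun k _ => idx K k) (fun i _ => kOf K i)
    (fun _ hk => mem_range.2 (idx_lt hk)) (fun i _ => kOf_mem K i) (fun _ hk => kOf_idx hk)
    (fun _ hi => idx_kOf (mem_range.1 hi)) fun _ hk => by rw [kOf_idx hk]

/-- The coordinates are computable. -/
theorem PT_kOf {K i : α → ℕ} (hK : PT ∅ K) (hi : PT ∅ i) (j : Fin 3) :
    PT ∅ (fun a => kOf (K a) (i a) j) :=
  PT.subNat ((hi.div ((((PT.const 2).mul hK).add (PT.const 1)).powConst (j : ℕ))).mod
    (((PT.const 2).mul hK).add (PT.const 1))) hK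

end Vale.Agent.P370.H855
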