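import Mathlib
import Vale.Agent.P370.H855.Base

/-!
Sums and products with unary index, powers, limits, the exponential function and `π` for
functions that can be approximated with exponentially small error in polynomial time.
-/

namespace Vale.Agent.P370.H855

open Vale.Agent.Lib.PolyTime Function

variable {α β γ : Type*} [Enc α] [Enc β] [Enc γ]

/-! ### Unary indices -/

theorem PT_clampUn {n : α → ℕ} (hn : PT ∅ n) (hnb : PBd n) :
    PT ∅ (fun p : α × ℕ => (p.1, Un.mk (min p.2 (n p.1)))) :=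
  PT_prec PT.fst' (PT.snd'.min (hn.comp PT.fst'))
    ((hnb.comp (A := ∅) PT.fst').mono fun _ => min_le_right _ _)

/-- Sums of polynomial length, with unary index. -/
theorem PTR.sumUn {n : α → ℕ} (hn : PT ∅ n) (hnb : PBd n) {F : α → ℕ → ℝ}
    (hF : PTR (fun p : α × Un => F p.1 p.2.v)) :
    PTR (fun a => ∑ i ∈ Finset.range (n a), F a i) :=
  (PTR.sum hn hnb (F := fun a i => F a (Min.min i (n a))) (hF.comp (PT_clampUn hn hnb))).congr
    fun a => Finset.sum_congr rfl fun i hi => by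
      rw [min_eq_left (Finset.mem_range.1 hi).le]

/-- A uniform bound over an initial segment. -/
theorem exists_rangeBd {n : α → ℕ} (hn : PT ∅ n) (hnb : PBd n) {b : α × Un → ℕ} (hb : PT ∅ b)
    (hbb : PBd b) :
    ∃ B : α → ℕ, PT ∅ B ∧ PBd B ∧ ∀ a, ∀ i < n a, b (a, Un.mk i) ≤ B a := by
  have hP : PT ∅ (fun a => ((List.range (n a)).map fun i => b (a, Un.mk (min i (n a)))).sum) :=
    PT.sum (PT.map (f := fun a i => b (a, Un.mk (min i (n a)))) (PT.range hn hnb)
      (hb.comp (PT_clampUn hn hnb)))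
  obtain ⟨c, hc⟩ := hbb
  refine ⟨_, hP, ?_, fun a i hi => ?_⟩
  · have h1 : PBd (fun a : α => pb c (esize (a, Un.mk (n a)))) :=
      (PBd.of_PB (α := α × Un) (PB.pb c)).comp (A := ∅) (PT.id.pair (PT.mkUn hn hnb))
    refine (hnb.mul h1).mono fun a => ?_
    have h2 : ∀ x ∈ (List.range (n a)).map fun i => b (a, Un.mk (min i (n a))),
        x ≤ pb c (esize (a, Un.mk (n a))) := by
      intro x hx
      obtain ⟨i, hi, rfl⟩ := List.mem_map.1 hx
      refine (hc _).trans (pb_mono c ?_)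
      rw [esize_pair, esize_pair, esize_un, esize_un]
      have := min_le_right i (n a)
      simp only
      omega
    refine (List.sum_le_card_nsmul _ _ h2).trans ?_
    simp
  · have h2 : b (a, Un.mk i) ∈ (List.range (n a)).map fun i => b (a, Un.mk (min i (n a))) := by
      refine List.mem_map.2 ⟨i, List.mem_range.2 hi, ?_⟩
      simp only [min_eq_left hi.le]
    exact List.single_le_sum (fun _ _ => Nat.zero_le _) _ h2

/-! ### Products and powers -/

theorem abs_prod_sub_le {x y : ℕ → ℝ} {M ε : ℝ} (hM : 1 ≤ M) (n : ℕ)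
    (hx : ∀ i < n, |x i| ≤ M) (hy : ∀ i < n, |y i| ≤ M) (hε : ∀ i < n, |x i - y i| ≤ ε) :
    |∏ i ∈ Finset.range n, x i - ∏ i ∈ Finset.range n, y i| ≤ n * M ^ n * ε ∧
      |∏ i ∈ Finset.range n, y i| ≤ M ^ n := by
  induction n with
  | zero => simp
  | succ n ih =>
    obtain ⟨h1, h2⟩ := ih (fun i hi => hx i (by omega)) (fun i hi => hy i (by omega))
      (fun i hi => hε i (by omega))
    have hε0 : 0 ≤ ε := (abs_nonneg _).trans (hε n (by omega))
    have hM0 : 0 ≤ M := by linarith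
    have hMn : 0 ≤ M ^ n := by positivity
    rw [Finset.prod_range_succ, Finset.prod_range_succ]
    constructor
    · set P := ∏ i ∈ Finset.range n, x i
      set Q := ∏ i ∈ Finset.range n, y i
      have e : P * x n - Q * y n = (P - Q) * x n + Q * (x n - y n) := by ring
      rw [e]
      refine (abs_add_le _ _).trans ?_
      rw [abs_mul, abs_mul]
      have h3 : |P - Q| * |x n| ≤ (n * M ^ n * ε) * M :=
        mul_le_mul h1 (hx n (by omega)) (abs_nonneg _) (by positivity)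
      have h4 : |Q| * |x n - y n| ≤ M ^ n * ε :=
        mul_le_mul h2 (hε n (by omega)) (abs_nonneg _) hMn
      have h5 : M ^ n * ε ≤ M ^ n * ε * M := le_mul_of_one_le_right (by positivity) hM
      push_cast
      rw [pow_succ]
      nlinarith
    · rw [abs_mul, pow_succ]
      exact mul_le_mul h2 (hy n (by omega)) (abs_nonneg _) hMn

/-- Products of polynomial length, with unary index. -/
theorem PTR.prodUn {n : α → ℕ} (hn : PT ∅ n) (hnb : PBd n) {F : α → ℕ → ℝ}
    (hF : PTR (fun p : α × Un => F p.1 p.2.v)) :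
    PTR (fun a => ∏ i ∈ Finset.range (n a), F a i) := by
  obtain ⟨b, hb, hbb, hb'⟩ := hF.bound
  obtain ⟨B, hB, hBb, hB'⟩ := exists_rangeBd hn hnb hb hbb
  have hs : PT ∅ (fun a => Nat.size (n a)) := hn.natSize
  have hsb : PBd (fun a => Nat.size (n a)) := hn.pbd.mono fun a => by rw [esize_nat]
  have hκ : PT ∅ (fun p : α × Un => p.2.v + Nat.size (n p.1) + (B p.1 + 1) * n p.1) :=
    (PT_precv.add (hs.comp PT.fst')).add
      (((hB.comp PT.fst').add (PT.const 1)).mul (hn.comp PT.fst'))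
  have hκb : PBd (fun p : α × Un => p.2.v + Nat.size (n p.1) + (B p.1 + 1) * n p.1) :=
    (PBd_precv.add (hsb.comp (A := ∅) PT.fst')).add
      (((hBb.comp (A := ∅) PT.fst').add (PBd.const 1)).mul (hnb.comp (A := ∅) PT.fst'))
  have hn' : PT ∅ (fun p : α × Un => n p.1) := hn.comp PT.fst'
  have hnb' : PBd (fun p : α × Un => n p.1) := hnb.comp (A := ∅) PT.fst'
  obtain ⟨g, hg, hg'⟩ := hF.approx (β := (α × Un) × ℕ)
    (κ := fun q => q.1.2.v + Nat.size (n q.1.1) + (B q.1.1 + 1) * n q.1.1)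
    (c := fun q => (q.1.1, Un.mk (Min.min q.2 (n q.1.1))))
    (PT.fst'.fst.pair (PT_clampUn hn' hnb').snd) (hκ.comp PT.fst') (hκb.comp (A := ∅) PT.fst')
  have hD : PT ∅ (fun p : α × Un => 2 ^ ((p.2.v + Nat.size (n p.1) + (B p.1 + 1) * n p.1) *
      n p.1)) := PT_twoPow (hκ.mul hn') (hκb.mul hnb')
  refine PTR.intro (n := fun p => ∏ i ∈ Finset.range (n p.1), g (p, i))
    (PT_intProdRange hn' hnb' hg) hD (fun p => by positivity) fun a k => ?_
  simp only
  push_cast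
  set m := k + Nat.size (n a) + (B a + 1) * n a with hm
  have e1 : (∏ i ∈ Finset.range (n a), (g ((a, Un.mk k), i) : ℝ)) / 2 ^ (m * n a) =
      ∏ i ∈ Finset.range (n a), ((g ((a, Un.mk k), i) : ℝ) / 2 ^ m) := by
    rw [Finset.prod_div_distrib, Finset.prod_const, Finset.card_range, ← pow_mul]
  rw [e1]
  have hF1 : ∀ i < n a, |F a i| ≤ 2 ^ (B a + 1) := fun i hi => by
    have h1 := hb' (a, Un.mk i)
    simp only at h1
    refine h1.trans (pow_le_pow_right₀ (by norm_num) ((hB' a i hi).trans (Nat.le_succ _)))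
  have hε : ∀ i < n a, |F a i - (g ((a, Un.mk k), i) : ℝ) / 2 ^ m| ≤ 1 / 2 ^ m := fun i hi => by
    have h1 := hg' ((a, Un.mk k), i)
    simp only [min_eq_left hi.le] at h1
    exact h1
  have hy : ∀ i < n a, |(g ((a, Un.mk k), i) : ℝ) / 2 ^ m| ≤ 2 ^ (B a + 1) := fun i hi => by
    have h1 := hb' (a, Un.mk i)
    simp only at h1
    have h2 : |F a i| ≤ 2 ^ B a := h1.trans (pow_le_pow_right₀ (by norm_num) (hB' a i hi))
    have h3 := hε i hi
    have h4 : (1 : ℝ) / 2 ^ m ≤ 1 := by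
      rw [div_le_one (by positivity)]
      exact one_le_pow₀ (by norm_num)
    have h5 : (1 : ℝ) ≤ 2 ^ B a := one_le_pow₀ (by norm_num)
    have h6 := abs_sub_abs_le_abs_sub ((g ((a, Un.mk k), i) : ℝ) / 2 ^ m) (F a i)
    rw [abs_sub_comm] at h6
    rw [pow_succ]
    linarith
  refine (abs_prod_sub_le (one_le_pow₀ (by norm_num)) (n a) hF1 hy hε).1.trans ?_
  have h2 : (n a : ℝ) ≤ 2 ^ Nat.size (n a) := by exact_mod_cast (Nat.lt_size_self _).le
  have h3 : ((2 : ℝ) ^ (B a + 1)) ^ n a = 2 ^ ((B a + 1) * n a) := by rw [← pow_mul]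
  rw [h3, hm, pow_add, pow_add]
  calc (n a : ℝ) * 2 ^ ((B a + 1) * n a) * (1 / (2 ^ k * 2 ^ Nat.size (n a) * 2 ^ ((B a + 1) * n a)))
      ≤ 2 ^ Nat.size (n a) * 2 ^ ((B a + 1) * n a) *
        (1 / (2 ^ k * 2 ^ Nat.size (n a) * 2 ^ ((B a + 1) * n a))) := by gcongr
    _ = 1 / 2 ^ k := by field_simp

/-- Powers with a polynomially bounded exponent. -/
theorem PTR.pow {f : α → ℝ} (hf : PTR f) {e : α → ℕ} (he : PT ∅ e) (heb : PBd e) :
    PTR (fun a => f a ^ e a) :=
  (PTR.prodUn he heb (F := fun a _ => f a) (hf.comp PT.fst')).congr fun a => by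
    rw [Finset.prod_const, Finset.card_range]

theorem PTR.powConst {f : α → ℝ} (hf : PTR f) (e : ℕ) : PTR (fun a => f a ^ e) :=
  hf.pow (PT.const e) (PBd.const e)

/-! ### Limits -/

/-- Limits with exponential speed of convergence. -/
theorem PTR.limit {f : α → ℝ} {F : α → ℕ → ℝ} (hF : PTR (fun p : α × Un => F p.1 p.2.v))
    (h : ∀ a k, |f a - F a k| ≤ 1 / 2 ^ k) : PTR f := by
  have hκ : PT ∅ (fun p : α × Un => p.2.v + 1) := PT_precv.add (PT.const 1)
  have hκb : PBd (fun p : α × Un => p.2.v + 1) := PBd_precv.add (PBd.const 1)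
  obtain ⟨g, hg, hg'⟩ := hF.approx (β := α × Un) (κ := fun p => p.2.v + 1)
    (c := fun p => (p.1, Un.mk (p.2.v + 1))) (PT_prec PT.fst' hκ hκb) hκ hκb
  refine PTR.intro hg (PT_twoPow hκ hκb) (fun p => by positivity) fun a k => ?_
  have h1 := hg' (a, Un.mk k)
  simp only at h1 ⊢
  push_cast
  have h2 := h a (k + 1)
  calc |f a - (g (a, Un.mk k) : ℝ) / 2 ^ (k + 1)|
      = |(f a - F a (k + 1)) + (F a (k + 1) - (g (a, Un.mk k) : ℝ) / 2 ^ (k + 1))| := by ring_nf
    _ ≤ _ := abs_add_le _ _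
    _ ≤ 1 / 2 ^ (k + 1) + 1 / 2 ^ (k + 1) := add_le_add h2 h1
    _ = 1 / 2 ^ k := by rw [pow_succ]; field_simp; norm_num

/-! ### The exponential function -/

theorem exp_taylor_err {x : ℝ} {C m : ℕ} (hC : 1 ≤ C) (hx : |x| ≤ C) :
    |Real.exp x - ∑ j ∈ Finset.range (2 * C + m), x ^ j / (j.factorial : ℝ)| ≤
      2 * (C : ℝ) ^ (2 * C) / 2 ^ m := by
  have hC' : (1 : ℝ) ≤ C := by exact_mod_cast hC
  have h1 := Complex.exp_bound' (x := (x : ℂ)) (n := 2 * C + m) (by
    rw [Complex.norm_real, Real.norm_eq_abs, div_le_iff₀ (by positivity)]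
    push_cast
    have : (0 : ℝ) ≤ m := by positivity
    linarith)
  have h2 : Complex.exp (x : ℂ) - ∑ j ∈ Finset.range (2 * C + m), (x : ℂ) ^ j / (j.factorial : ℂ) =
      ((Real.exp x - ∑ j ∈ Finset.range (2 * C + m), x ^ j / (j.factorial : ℝ) : ℝ) : ℂ) := by
    push_cast
    rfl
  rw [h2, Complex.norm_real, Real.norm_eq_abs, Complex.norm_real, Real.norm_eq_abs] at h1
  refine h1.trans ?_
  have h3 : ((2 * C).factorial : ℝ) * (2 * C + 1) ^ m ≤ ((2 * C + m).factorial : ℝ) := by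
    exact_mod_cast Nat.factorial_mul_pow_le_factorial
  have h4 : (1 : ℝ) ≤ ((2 * C).factorial : ℝ) := by
    exact_mod_cast Nat.succ_le_of_lt (Nat.factorial_pos _)
  have h5 : (2 * (C : ℝ)) ^ m ≤ ((2 * C + m).factorial : ℝ) := by
    refine le_trans ?_ h3
    calc (2 * (C : ℝ)) ^ m ≤ (2 * C + 1) ^ m := by gcongr; linarith
      _ = 1 * (2 * C + 1) ^ m := by ring
      _ ≤ _ := by gcongr
  have h6 : |x| ^ (2 * C + m) ≤ (C : ℝ) ^ (2 * C + m) := by gcongr
  have hpos : (0 : ℝ) < (2 * (C : ℝ)) ^ m := by positivity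
  calc |x| ^ (2 * C + m) / ((2 * C + m).factorial : ℝ) * 2
      ≤ (C : ℝ) ^ (2 * C + m) / (2 * (C : ℝ)) ^ m * 2 := by gcongr
    _ = 2 * (C : ℝ) ^ (2 * C) / 2 ^ m := by
        rw [pow_add, mul_pow]
        field_simp

/-- The exponential of a polynomially bounded argument. -/
theorem PTR.exp {f : α → ℝ} (hf : PTR f) {B : α → ℕ} (hB : PT ∅ B) (hBb : PBd B)
    (h : ∀ a, |f a| ≤ B a) : PTR (fun a => Real.exp (f a)) := by
  set C : α → ℕ := fun a => B a + 1 with hCdef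
  have hC : PT ∅ C := hB.add (PT.const 1)
  have hCb : PBd C := hBb.add (PBd.const 1)
  -- number of additional terms
  set m : α → ℕ := fun a => 1 + Nat.size (C a) * (2 * C a) with hmdef
  have hm : PT ∅ m := (PT.const 1).add (hC.natSize.mul ((PT.const 2).mul hC))
  have hmb : PBd m := (PBd.const 1).add ((hC.pbd.mono fun a => by rw [esize_nat]).mul
    ((PBd.const 2).mul hCb))
  refine PTR.limit (F := fun a k => ∑ j ∈ Finset.range (2 * C a + (k + m a)),
    f a ^ j / (j.factorial : ℝ)) ?_ fun a k => ?_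
  · refine PTR.sumUn (α := α × Un) (n := fun p => 2 * C p.1 + (p.2.v + m p.1))
      (F := fun p j => f p.1 ^ j / (j.factorial : ℝ)) ?_ ?_ ?_
    · exact ((PT.const 2).mul (hC.comp PT.fst')).add (PT_precv.add (hm.comp PT.fst'))
    · exact ((PBd.const 2).mul (hCb.comp (A := ∅) PT.fst')).add
        (PBd_precv.add (hmb.comp (A := ∅) PT.fst'))
    · have h1 : PTR (fun q : (α × Un) × Un => f q.1.1 ^ q.2.v) :=
        (hf.comp PT.fst'.fst).pow PT_precv PBd_precv
      have h2 : PTR (fun q : (α × Un) × Un => ((1 : ℤ) : ℝ) / ((q.2.v.factorial : ℕ) : ℝ)) :=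
        PTR.ofFrac (PT.const 1) (PT.factorial PT_precv PBd_precv)
      exact (h1.mul h2).congr fun q => by push_cast; ring
  · refine (exp_taylor_err (C := C a) (m := k + m a) (by simp [hCdef])
      ((h a).trans (by simp [hCdef]))).trans ?_
    have h1 : ((C a : ℕ) : ℝ) ≤ 2 ^ Nat.size (C a) := by exact_mod_cast (Nat.lt_size_self _).le
    have h2 : ((C a : ℕ) : ℝ) ^ (2 * C a) ≤ 2 ^ (Nat.size (C a) * (2 * C a)) := by
      rw [pow_mul (2 : ℝ)]
      gcongr
    have e : (2 : ℝ) ^ (k + m a) = 2 ^ k * (2 * 2 ^ (Nat.size (C a) * (2 * C a))) := by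
      rw [hmdef, pow_add, pow_add, pow_one]
    rw [e]
    calc 2 * (C a : ℝ) ^ (2 * C a) / (2 ^ k * (2 * 2 ^ (Nat.size (C a) * (2 * C a))))
        ≤ 2 * 2 ^ (Nat.size (C a) * (2 * C a)) / (2 ^ k * (2 * 2 ^ (Nat.size (C a) * (2 * C a)))) := by
          gcongr
      _ = 1 / 2 ^ k := by field_simp

/-! ### Series with geometric decay, and `π` -/

/-- Series whose terms are at most `2 ^ (b - i)`. -/
theorem PTR.hasSum {F : α → ℕ → ℝ} {f : α → ℝ} (hF : PTR (fun p : α × Un => F p.1 p.2.v))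
    (hs : ∀ a, HasSum (F a) (f a)) {b : α → ℕ} (hb : PT ∅ b) (hbb : PBd b)
    (h : ∀ a i, |F a i| ≤ 2 ^ b a / 2 ^ i) : PTR f := by
  refine PTR.limit (F := fun a k => ∑ i ∈ Finset.range (k + b a + 1), F a i) ?_ fun a k => ?_
  · exact PTR.sumUn (α := α × Un) (n := fun p => p.2.v + b p.1 + 1) (F := fun p j => F p.1 j)
      ((PT_precv.add (hb.comp PT.fst')).add (PT.const 1))
      ((PBd_precv.add (hbb.comp (A := ∅) PT.fst')).add (PBd.const 1))
      (hF.comp (PT.fst'.fst.pair PT.snd'))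
  · have h1 := (hasSum_nat_add_iff' (k + b a + 1)).2 (hs a)
    have h2 : HasSum (fun i : ℕ => (2 : ℝ) ^ b a / 2 ^ (k + b a + 1) * (1 / 2) ^ i)
        (2 ^ b a / 2 ^ (k + b a + 1) * (1 - 1 / 2)⁻¹) :=
      (hasSum_geometric_of_lt_one (by norm_num) (by norm_num)).mul_left _
    have h3 := h1.norm_le_of_bounded h2 fun i => by
      rw [Real.norm_eq_abs]
      refine (h a _).trans (le_of_eq ?_)
      rw [pow_add, one_div, inv_pow]
      field_simp
    rw [Real.norm_eq_abs] at h3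
    refine h3.trans (le_of_eq ?_)
    rw [pow_add, pow_add]
    field_simp
    norm_num

/-- The arctangent of `1 / q`. -/
theorem PTR.arctanInv {q : ℕ} (hq : 2 ≤ q) :
    PTR (fun _ : α => Real.arctan ((q : ℝ)⁻¹)) := by
  have hq' : (2 : ℝ) ≤ q := by exact_mod_cast hq
  have h1 : ‖((q : ℝ)⁻¹)‖ < 1 := by
    rw [Real.norm_eq_abs, abs_of_pos (by positivity)]
    exact inv_lt_one_of_one_lt₀ (by linarith)
  refine PTR.hasSum (F := fun _ i => (-1) ^ i * ((q : ℝ)⁻¹) ^ (2 * i + 1) / ((2 * i + 1 : ℕ) : ℝ))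
    (b := fun _ => 0) ?_ (fun _ => Real.hasSum_arctan h1) (PT.const 0) (PBd.const 0) fun _ i => ?_
  · have hκ : PT ∅ (fun p : α × Un => 2 * p.2.v + 1) :=
      ((PT.const 2).mul PT_precv).add (PT.const 1)
    have hκb : PBd (fun p : α × Un => 2 * p.2.v + 1) :=
      ((PBd.const 2).mul PBd_precv).add (PBd.const 1)
    have h2 : PT ∅ (fun p : α × Un => (-1 : ℤ) ^ p.2.v) :=
      PT_intPow (PT.const (-1)) PT_precv PBd_precv
    have h3 : PT ∅ (fun p : α × Un => q ^ (2 * p.2.v + 1) * (2 * p.2.v + 1)) :=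
      ((PT.const q).pow hκ hκb).mul hκ
    refine (PTR.ofFrac h2 h3).congr fun p => ?_
    push_cast
    rw [inv_pow]
    field_simp
  · rw [pow_zero, abs_div, abs_mul, abs_pow, abs_neg, abs_one, one_pow, one_mul,
      abs_of_pos (show (0 : ℝ) < ((q : ℝ)⁻¹) ^ (2 * i + 1) by positivity),
      abs_of_pos (show (0 : ℝ) < ((2 * i + 1 : ℕ) : ℝ) by positivity)]
    have h4 : (1 : ℝ) ≤ ((2 * i + 1 : ℕ) : ℝ) := by exact_mod_cast (by omega : 1 ≤ 2 * i + 1)
    calc ((q : ℝ)⁻¹) ^ (2 * i + 1) / ((2 * i + 1 : ℕ) : ℝ) ≤ ((q : ℝ)⁻¹) ^ (2 * i + 1) / 1 := by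
          gcongr
      _ = ((q : ℝ)⁻¹) ^ (2 * i + 1) := div_one _
      _ ≤ ((2 : ℝ)⁻¹) ^ (2 * i + 1) := by gcongr
      _ ≤ ((2 : ℝ)⁻¹) ^ i := pow_le_pow_of_le_one (by norm_num) (by norm_num) (by omega)
      _ = 1 / 2 ^ i := by rw [inv_pow, one_div]

theorem PTR.pi : PTR (fun _ : α => Real.pi) := by
  have h2 : PTR (fun _ : α => Real.arctan (((2 : ℕ) : ℝ)⁻¹)) := PTR.arctanInv le_rfl
  have h3 : PTR (fun _ : α => Real.arctan (((3 : ℕ) : ℝ)⁻¹)) := PTR.arctanInv (by norm_num)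
  refine ((PTR.constNat 4).mul (h2.add h3)).congr fun _ => ?_
  have := Real.arctan_inv_2_add_arctan_inv_3
  push_cast
  rw [this]
  ring

end Vale.Agent.P370.H855
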