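import Vale.Agent.P370.H855.Prog
import Vale.Agent.P370.H207.Grad

/-!
The gradient of the designed potential is computable: `GradPTR` and `GradZero`, hence `ProgStmt`.
-/

namespace Vale.Agent.P370.H855

open Vale.Agent.Lib.PolyTime Function Finset MeasureTheory
open Vale.Agent.P363.Stmt Vale.Agent.P370.H305 Vale.Agent.P370.H115
open Vale.Agent.P370.H98 (gradC gradS ez)
open Vale.Agent.P370.H207 hiding R3

noncomputable section

/-- The gradient of the designed potential. -/
def gUD (n m : ℕ) (σ : ℝ) (τ : ℕ → ℕ → ℝ) (x : R3) : R3 :=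
  -(σ • ∑ i ∈ range m, ((2 * rC n m i x) • gradC n (rang m i) x -
      (2 * rS n m i x) • gradS n (rang m i) x)) -
    ∑ i ∈ range m, ∑ j ∈ range m,
      if i < j then τ i j • (rC n m i x • gradC n (rang m j) x +
        rC n m j x • gradC n (rang m i) x) else 0

theorem hasGradientAt_uD {n : ℕ} (hn : 3 ≤ n) (m : ℕ) (σ : ℝ) (τ : ℕ → ℕ → ℝ) (x : R3) :
    HasGradientAt (uD n m σ τ) (gUD n m σ τ x) x := by
  unfold uD gUD
  refine HasGrad.sub (HasGrad.neg (HasGrad.const_mul (HasGrad.sum _ fun i _ => ?_) σ))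
    (HasGrad.sum _ fun i _ => HasGrad.sum _ fun j _ => ?_)
  · have h1 := HasGrad.mul (hasGradientAt_ringC hn (rang m i) x) (hasGradientAt_ringC hn (rang m i) x)
    have h2 := HasGrad.mul (hasGradientAt_ringS hn (rang m i) x) (hasGradientAt_ringS hn (rang m i) x)
    have h := HasGrad.sub h1 h2
    have e : (fun y => ringC n (rang m i) y * ringC n (rang m i) y -
        ringS n (rang m i) y * ringS n (rang m i) y) = fun y => rC n m i y ^ 2 - rS n m i y ^ 2 := by
      funext y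
      unfold rC rS
      ring
    rw [e] at h
    convert h using 1
    unfold rC rS
    rw [two_mul, two_mul, add_smul, add_smul]
  · by_cases hij : i < j
    · simp only [hij, if_true]
      exact HasGrad.const_mul (HasGrad.mul (hasGradientAt_ringC hn (rang m i) x)
        (hasGradientAt_ringC hn (rang m j) x)) _
    · simp only [hij, if_false]
      exact hasGradientAt_const x (0 : ℝ)

theorem gradient_uD {n : ℕ} (hn : 3 ≤ n) (m : ℕ) (σ : ℝ) (τ : ℕ → ℕ → ℝ) (x : R3) :
    gradient (uD n m σ τ) x = gUD n m σ τ x :=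
  (hasGradientAt_uD hn m σ τ x).gradient

theorem gradZero : GradZero := by
  intro n m σ τ hn
  rw [gradient_uD (by omega)]
  unfold gUD
  simp only [gradC_zero (show 3 ≤ n by omega), gradS_zero (show 3 ≤ n by omega), smul_zero,
    sub_zero, Finset.sum_const_zero, neg_zero, add_zero, ite_self]

theorem sum_coord {ι : Type*} (s : Finset ι) (f : ι → R3) (j : Fin 3) :
    (∑ i ∈ s, f i) j = ∑ i ∈ s, f i j :=
  map_sum (EuclideanSpace.proj (𝕜 := ℝ) j) f s

section

variable {α : Type} [Enc α] {n m i Bd c : α → ℕ} {X : α → R3}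

theorem PTR_wvec (hm : PT ∅ m) (hi : PT ∅ i) (hib : PBd i) (j : Fin 3) :
    PTR (fun a => wvec (rang (m a) (i a)) j) := by
  fin_cases j
  · exact (PTR_sin_rang hm hi hib).neg.congr fun a => by simp [wvec]
  · exact (PTR_cos_rang hm hi hib).congr fun a => by simp [wvec]
  · exact PTR.zero.congr fun a => by simp [wvec]

theorem PTR_ez (j : Fin 3) : PTR (fun _ : α => (ez : R3) j) := by
  fin_cases j
  · exact PTR.zero.congr fun a => by simp [ez]
  · exact PTR.zero.congr fun a => by simp [ez]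
  · exact PTR.one.congr fun a => by simp [ez]

theorem PTR_invNorm (hn : PT ∅ n) (hn1 : ∀ a, 1 ≤ n a) (hX : ∀ j, PTR (fun a => X a j))
    (hc : PT ∅ c) (hcb : PBd c) (hlo : ∀ a, 1 / 2 ^ c a ≤ ‖X a‖) :
    PTR (fun a => ((n a : ℝ) * ‖X a‖)⁻¹) := by
  refine ((PTR.ofNat hn).mul (H207.PTR_norm hX)).inv hc hcb fun a => ?_
  have h1 : (1 : ℝ) ≤ n a := by exact_mod_cast hn1 a
  rw [abs_of_nonneg (by positivity)]
  calc 1 / 2 ^ c a ≤ ‖X a‖ := hlo a
    _ = 1 * ‖X a‖ := (one_mul _).symm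
    _ ≤ n a * ‖X a‖ := by gcongr

variable (hn : PT ∅ n) (hnb : PBd n) (hn1 : ∀ a, 1 ≤ n a) (hm : PT ∅ m) (hi : PT ∅ i)
  (hib : PBd i) (hX : ∀ j, PTR (fun a => X a j)) (hB : PT ∅ Bd) (hBb : PBd Bd)
  (hb : ∀ a, ‖X a‖ ≤ Bd a) (hc : PT ∅ c) (hcb : PBd c) (hlo : ∀ a, 1 / 2 ^ c a ≤ ‖X a‖)

include hn hnb hn1 hm hi hib hX hB hBb hb hc hcb hlo

theorem PTR_gradC (j : Fin 3) : PTR (fun a => gradC (n a) (rang (m a) (i a)) (X a) j) := by
  have h1 := (PTR.cn hn hnb).mul (PTR_expNorm hn hX hB hBb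
    fun a j => (abs_le_norm _ j).trans (hb a))
  have h2 : PT ∅ (fun a => n a - 2) := hn.sub (PT.const 2)
  have h2b : PBd (fun a => n a - 2) := hnb.mono fun _ => Nat.sub_le _ _
  have h3 : PT ∅ (fun a => n a - 1) := hn.sub (PT.const 1)
  have h3b : PBd (fun a => n a - 1) := hnb.mono fun _ => Nat.sub_le _ _
  refine (h1.mul ((((PTR.ofNat hn).sub PTR.one).mul
    (((PTR_zet_re hm hi hib hX h2 h2b).mul (PTR_ez j)).sub
      ((PTR_zet_im hm hi hib hX h2 h2b).mul (PTR_wvec hm hi hib j)))).sub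
    (((PTR_zet_re hm hi hib hX h3 h3b).mul (PTR_invNorm hn hn1 hX hc hcb hlo)).mul (hX j)))).congr
    fun a => ?_
  unfold gradC
  simp only [PiLp.smul_apply, PiLp.sub_apply, smul_eq_mul]
  rw [div_eq_mul_inv _ ((n a : ℝ) * ‖X a‖)]

theorem PTR_gradS (j : Fin 3) : PTR (fun a => gradS (n a) (rang (m a) (i a)) (X a) j) := by
  have h1 := (PTR.cn hn hnb).mul (PTR_expNorm hn hX hB hBb
    fun a j => (abs_le_norm _ j).trans (hb a))
  have h2 : PT ∅ (fun a => n a - 2) := hn.sub (PT.const 2)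
  have h2b : PBd (fun a => n a - 2) := hnb.mono fun _ => Nat.sub_le _ _
  have h3 : PT ∅ (fun a => n a - 1) := hn.sub (PT.const 1)
  have h3b : PBd (fun a => n a - 1) := hnb.mono fun _ => Nat.sub_le _ _
  refine (h1.mul ((((PTR.ofNat hn).sub PTR.one).mul
    (((PTR_zet_im hm hi hib hX h2 h2b).mul (PTR_ez j)).add
      ((PTR_zet_re hm hi hib hX h2 h2b).mul (PTR_wvec hm hi hib j)))).sub
    (((PTR_zet_im hm hi hib hX h3 h3b).mul (PTR_invNorm hn hn1 hX hc hcb hlo)).mul (hX j)))).congr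
    fun a => ?_
  unfold gradS
  simp only [PiLp.smul_apply, PiLp.sub_apply, PiLp.add_apply, smul_eq_mul]
  rw [div_eq_mul_inv _ ((n a : ℝ) * ‖X a‖)]

end

theorem gUD_apply (n m : ℕ) (σ : ℝ) (τ : ℕ → ℕ → ℝ) (x : R3) (j : Fin 3) :
    gUD n m σ τ x j = -(σ * ∑ i ∈ range m, (2 * ringC n (rang m i) x * gradC n (rang m i) x j -
      2 * ringS n (rang m i) x * gradS n (rang m i) x j)) -
    ∑ i ∈ range m, ∑ k ∈ range m,
      if i < k then τ i k * (ringC n (rang m i) x * gradC n (rang m k) x j +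
        ringC n (rang m k) x * gradC n (rang m i) x j) else 0 := by
  unfold gUD
  rw [PiLp.sub_apply, PiLp.neg_apply, PiLp.smul_apply, sum_coord, sum_coord, smul_eq_mul]
  congr 1
  refine Finset.sum_congr rfl fun i _ => ?_
  rw [sum_coord]
  refine Finset.sum_congr rfl fun k _ => ?_
  by_cases h : i < k
  · simp only [h, if_true]
    rfl
  · simp only [h, if_false]
    rfl

theorem gradPTR : GradPTR := by
  intro α _ n m sg ta X Bd c hn hnb hn4 hm hmb hsg hta hX hB hBb hb hc hcb hlo j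
  have hn1 : ∀ a, 1 ≤ n a := fun a => by have := hn4 a; omega
  have hbc : ∀ a j, |X a j| ≤ Bd a := fun a j => (abs_le_norm _ j).trans (hb a)
  -- the sum over the rings
  have e1 : PTR (fun a => ∑ i ∈ range (m a),
      (2 * ringC (n a) (rang (m a) i) (X a) * gradC (n a) (rang (m a) i) (X a) j -
      2 * ringS (n a) (rang (m a) i) (X a) * gradS (n a) (rang (m a) i) (X a) j)) := by
    refine PTR.sumUn (F := fun a i =>
      2 * ringC (n a) (rang (m a) i) (X a) * gradC (n a) (rang (m a) i) (X a) j -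
      2 * ringS (n a) (rang (m a) i) (X a) * gradS (n a) (rang (m a) i) (X a) j) hm hmb ?_
    have f1 : PT ∅ (fun p : α × Un => p.1) := PT.fst'
    have hX' : ∀ j, PTR (fun p : α × Un => X p.1 j) := fun j => (hX j).comp f1
    have rc : PTR (fun p : α × Un => ringC (n p.1) (rang (m p.1) p.2.v) (X p.1)) :=
      PTR_ringC (hn.comp f1) (hnb.comp (A := ∅) f1) (hm.comp f1) PT_precv PBd_precv hX'
        (hB.comp f1) (hBb.comp (A := ∅) f1) fun p => hbc p.1
    have rs : PTR (fun p : α × Un => ringS (n p.1) (rang (m p.1) p.2.v) (X p.1)) :=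
      PTR_ringS (hn.comp f1) (hnb.comp (A := ∅) f1) (hm.comp f1) PT_precv PBd_precv hX'
        (hB.comp f1) (hBb.comp (A := ∅) f1) fun p => hbc p.1
    have gc : PTR (fun p : α × Un => gradC (n p.1) (rang (m p.1) p.2.v) (X p.1) j) :=
      PTR_gradC (hn.comp f1) (hnb.comp (A := ∅) f1) (fun p => hn1 p.1) (hm.comp f1) PT_precv
        PBd_precv hX' (hB.comp f1) (hBb.comp (A := ∅) f1) (fun p => hb p.1) (hc.comp f1)
        (hcb.comp (A := ∅) f1) (fun p => hlo p.1) j
    have gs : PTR (fun p : α × Un => gradS (n p.1) (rang (m p.1) p.2.v) (X p.1) j) :=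
      PTR_gradS (hn.comp f1) (hnb.comp (A := ∅) f1) (fun p => hn1 p.1) (hm.comp f1) PT_precv
        PBd_precv hX' (hB.comp f1) (hBb.comp (A := ∅) f1) (fun p => hb p.1) (hc.comp f1)
        (hcb.comp (A := ∅) f1) (fun p => hlo p.1) j
    exact ((((PTR.constNat 2).mul rc).mul gc).sub (((PTR.constNat 2).mul rs).mul gs)).congr
      fun p => by push_cast; rfl
  -- the sum over the pairs
  have e2 : PTR (fun a => ∑ i ∈ range (m a), ∑ k ∈ range (m a),
      if i < k then (ta a i k : ℝ) *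
        (ringC (n a) (rang (m a) i) (X a) * gradC (n a) (rang (m a) k) (X a) j +
        ringC (n a) (rang (m a) k) (X a) * gradC (n a) (rang (m a) i) (X a) j) else 0) := by
    have f1 : PT ∅ (fun p : α × Un => p.1) := PT.fst'
    refine PTR.sumUn (F := fun a i => ∑ k ∈ range (m a),
      if i < k then (ta a i k : ℝ) *
        (ringC (n a) (rang (m a) i) (X a) * gradC (n a) (rang (m a) k) (X a) j +
        ringC (n a) (rang (m a) k) (X a) * gradC (n a) (rang (m a) i) (X a) j) else 0) hm hmb ?_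
    refine PTR.sumUn (F := fun (p : α × Un) k =>
      if p.2.v < k then (ta p.1 p.2.v k : ℝ) *
        (ringC (n p.1) (rang (m p.1) p.2.v) (X p.1) * gradC (n p.1) (rang (m p.1) k) (X p.1) j +
        ringC (n p.1) (rang (m p.1) k) (X p.1) *
          gradC (n p.1) (rang (m p.1) p.2.v) (X p.1) j) else 0) (hm.comp f1)
      (hmb.comp (A := ∅) f1) ?_
    have g1 : PT ∅ (fun q : (α × Un) × Un => q.1.1) := PT.fst'.fst
    have hX' : ∀ j, PTR (fun q : (α × Un) × Un => X q.1.1 j) := fun j => (hX j).comp g1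
    have hi : PT ∅ (fun q : (α × Un) × Un => q.1.2.v) := PT.fst'.snd.unVal
    have hib : PBd (fun q : (α × Un) × Un => q.1.2.v) := PBd.unVal (A := ∅) PT.fst'.snd
    have rc : ∀ {i : (α × Un) × Un → ℕ}, PT ∅ i → PBd i →
        PTR (fun q : (α × Un) × Un => ringC (n q.1.1) (rang (m q.1.1) (i q)) (X q.1.1)) :=
      fun h1 h2 => PTR_ringC (hn.comp g1) (hnb.comp (A := ∅) g1) (hm.comp g1) h1 h2 hX'
        (hB.comp g1) (hBb.comp (A := ∅) g1) fun q => hbc q.1.1
    have gc : ∀ {i : (α × Un) × Un → ℕ}, PT ∅ i → PBd i →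
        PTR (fun q : (α × Un) × Un => gradC (n q.1.1) (rang (m q.1.1) (i q)) (X q.1.1) j) :=
      fun h1 h2 => PTR_gradC (hn.comp g1) (hnb.comp (A := ∅) g1) (fun q => hn1 q.1.1)
        (hm.comp g1) h1 h2 hX' (hB.comp g1) (hBb.comp (A := ∅) g1) (fun q => hb q.1.1)
        (hc.comp g1) (hcb.comp (A := ∅) g1) (fun q => hlo q.1.1) j
    have ht : PTR (fun q : (α × Un) × Un => (ta q.1.1 q.1.2.v q.2.v : ℝ)) :=
      PTR.ofRat (hta.comp (g1.pair (PT.fst'.snd.pair PT.snd')))
    exact PTR.ite (p := fun q : (α × Un) × Un => q.1.2.v < q.2.v) (hi.lt PT_precv)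
      (ht.mul (((rc hi hib).mul (gc PT_precv PBd_precv)).add
        ((rc PT_precv PBd_precv).mul (gc hi hib)))) PTR.zero
  refine ((((PTR.ofRat hsg).mul e1).neg).sub e2).congr fun a => ?_
  rw [gradient_uD (by have := hn4 a; omega), gUD_apply]

/-- **The program of the second half of line Q.** -/
theorem prog : ProgStmt H374.coreE H374.fE H227.phiC H227.phiJ := prog_of gradPTR gradZero

end

end Vale.Agent.P370.H855
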