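import Vale.Agent.P370.H855.Weak
import Vale.Agent.P370.HeisDefs

/-!
Rational numbers and instances of the electronic ground-state problem in the typed polynomial time
layer; rational approximations of real-valued functions.
-/

namespace Vale.Agent.P370.H855

open Vale.Agent.Lib.PolyTime Function
open Vale.Agent.P333 (pairW listW)

variable {α β γ : Type*} [Enc α] [Enc β] [Enc γ]

theorem pairW_eq (u v : List Bool) : pairW u v = pr u v := by
  unfold pairW
  induction u with
  | nil => rfl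
  | cons b u ih => simpa [pr] using ih

/-- Rational numbers are encoded as in the definition of the problem. -/
instance instEncRat : Enc ℚ := ⟨ratW⟩

theorem enc_rat (q : ℚ) : enc q = ratW q := rfl

/-- Instances are encoded as in the definition of the problem. -/
instance instEncInstance : Enc Instance := ⟨instW⟩

theorem enc_instance (I : Instance) : enc I = instW I := rfl

/-! ### Rational numbers -/

/-- The word of an integer. -/
theorem FP_intW {f : α → ℤ} (hf : PT ∅ f) : PT ∅ (fun a => Raw.mk (intW (f a))) := by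
  have h1 : ∀ s : Bool, PT ∅ (fun a => Raw.mk (s :: (f a).natAbs.bits)) := fun s => by
    obtain ⟨F, hF, hF'⟩ := hf.natAbs
    exact ⟨_, (FP.cons s).comp hF, fun a => by rw [hF']; rfl⟩
  refine (PT.ite (p := fun a => f a < 0) hf.intNeg? (h1 true) (h1 false)).congr fun a => ?_
  unfold intW
  split_ifs with h <;> simp [h]

/-- Fractions. -/
theorem PT_divRat {n : α → ℤ} {d : α → ℕ} (hn : PT ∅ n) (hd : PT ∅ d) (hd0 : ∀ a, 0 < d a) :
    PT ∅ (fun a => (n a : ℚ) / d a) := by
  have hg : PT ∅ (fun a => Nat.gcd (n a).natAbs (d a)) := PT.gcd hn.natAbs hd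
  have h1 : PT ∅ (fun a => n a / ((Nat.gcd (n a).natAbs (d a) : ℕ) : ℤ)) := PT.intDiv hn hg.natCast
  have h2 : PT ∅ (fun a => d a / Nat.gcd (n a).natAbs (d a)) := PT.div hd hg
  obtain ⟨F, hF, hF'⟩ := (FP_intW h1).pair h2
  refine ⟨F, hF, fun a => ?_⟩
  rw [hF']
  have e : (n a : ℚ) / (d a : ℚ) = Rat.normalize (n a) (d a) (hd0 a).ne' := by
    rw [← Rat.mkRat_eq_div, Rat.mkRat_def, dif_neg (hd0 a).ne']
  rw [enc_rat, ratW, pairW_eq]
  simp only [e, Rat.normalize_eq]
  rfl

/-- The numerator and the denominator. -/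
theorem PT_ratDen {f : α → ℚ} (hf : PT ∅ f) : PT ∅ (fun a => (f a).den) := by
  obtain ⟨F, hF, hF'⟩ := hf
  refine ⟨_, FP.snd.comp hF, fun a => ?_⟩
  show sndW (F (enc a)) = _
  rw [hF', enc_rat, ratW, pairW_eq, sndW_pr]
  rfl

theorem PT_ratNum {f : α → ℚ} (hf : PT ∅ f) : PT ∅ (fun a => (f a).num) := by
  obtain ⟨F, hF, hF'⟩ := hf
  have h1 : PT ∅ (fun a => Raw.mk (intW (f a).num)) := ⟨_, FP.fst.comp hF, fun a => by
    show fstW (F (enc a)) = _
    rw [hF', enc_rat, ratW, pairW_eq, fstW_pr]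
    rfl⟩
  have h2 : PT ∅ (fun a => decide ((f a).num < 0)) := by
    obtain ⟨G, hG, hG'⟩ := h1
    refine ⟨_, hG.case3 (FP.const (enc false)) (FP.const (enc false)) (FP.const (enc true)),
      fun a => ?_⟩
    rw [hG']
    have e : enc (Raw.mk (intW (f a).num)) = decide ((f a).num < 0) :: (f a).num.natAbs.bits := rfl
    simp only [e]
    cases decide ((f a).num < 0) <;> rfl
  have h3 : PT ∅ (fun a => (f a).num.natAbs) := by
    obtain ⟨G, hG, hG'⟩ := h1
    refine ⟨_, FP.tail.comp hG, fun a => ?_⟩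
    show (G (enc a)).tail = _
    rw [hG']
    rfl
  refine (PT.ite (p := fun a => (f a).num < 0) h2 (PT.natCast h3).intNeg
    (PT.natCast h3)).congr fun a => ?_
  split_ifs with h <;> omega

theorem PTR.ofRat {f : α → ℚ} (hf : PT ∅ f) : PTR (fun a => (f a : ℝ)) :=
  (PTR.ofFrac (PT_ratNum hf) (PT_ratDen hf)).congr fun a => by
    exact_mod_cast Rat.num_div_den (f a)

/-- Rational approximations with exponentially small error. -/
theorem PTR.exists_rat {f : α → ℝ} (hf : PTR f) {κ : α → ℕ} (hκ : PT ∅ κ) (hκb : PBd κ) :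
    ∃ q : α → ℚ, PT ∅ q ∧ ∀ a, |f a - (q a : ℝ)| ≤ 1 / 2 ^ κ a := by
  obtain ⟨g, hg, hg'⟩ := hf.approx (β := α) (c := fun a => a) PT.id hκ hκb
  refine ⟨fun a => (g a : ℚ) / ((2 ^ κ a : ℕ) : ℚ), PT_divRat hg (PT_twoPow hκ hκb)
    (fun a => by positivity), fun a => ?_⟩
  have := hg' a
  push_cast
  exact this

/-- Rational approximations with exponentially small error and power of two denominator. -/
theorem PTR.exists_int {f : α → ℝ} (hf : PTR f) {κ : α → ℕ} (hκ : PT ∅ κ) (hκb : PBd κ) :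
    ∃ g : α → ℤ, PT ∅ g ∧ ∀ a, |f a - (g a : ℝ) / 2 ^ κ a| ≤ 1 / 2 ^ κ a :=
  hf.approx (β := α) (c := fun a => a) PT.id hκ hκb

/-- Rational approximations with polynomially small error. -/
theorem PTW.exists_rat {f : α → ℝ} (hf : PTW f) {κ : α → ℕ} (hκ : PT ∅ κ) (hκb : PBd κ) :
    ∃ q : α → ℚ, PT ∅ q ∧ ∀ a, |f a - (q a : ℝ)| ≤ 1 / (κ a + 1) := by
  obtain ⟨g, hg, hg'⟩ := hf.approx (β := α) (c := fun a => a) PT.id hκ hκb
  refine ⟨fun a => (g a : ℚ) / ((κ a + 1 : ℕ) : ℚ), PT_divRat hg (hκ.add (PT.const 1))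
    (fun a => by positivity), fun a => ?_⟩
  have := hg' a
  push_cast
  exact this

/-! ### Instances -/

theorem enc_nuclei (l : List ((ℚ × ℚ × ℚ) × ℕ)) : enc l = listW nucleusW l := by
  induction l with
  | nil => rfl
  | cons a l ih =>
    rw [enc_cons, ih, show listW nucleusW (a :: l) = pairW (nucleusW a) (listW nucleusW l) from rfl,
      pairW_eq]
    congr 1
    unfold nucleusW
    rw [pairW_eq, pairW_eq, pairW_eq]
    rfl

/-- Computation of an instance from its parts. -/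
theorem PT_instance {l : α → List ((ℚ × ℚ × ℚ) × ℕ)} {N : α → ℕ} {a b : α → ℚ} (hl : PT ∅ l)
    (hN : PT ∅ N) (hNb : PBd N) (ha : PT ∅ a) (hb : PT ∅ b) :
    PT ∅ (fun x => (⟨l x, N x, a x, b x⟩ : Instance)) := by
  obtain ⟨F, hF, hF'⟩ := hl.pair ((PT.mkUn hN hNb).pair (ha.pair hb))
  refine ⟨F, hF, fun x => ?_⟩
  rw [hF', enc_instance, instW, pairW_eq, pairW_eq, pairW_eq, enc_pair, enc_pair, enc_pair,
    enc_nuclei, enc_un, enc_rat, enc_rat]

end Vale.Agent.P370.H855
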