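import Vale.Agent.P370.H855.ProgD

/-!
The program of the second half of line Q: the final theorem `ProgStmt`.
-/

namespace Vale.Agent.P370.H855

open Vale.Agent.Lib.PolyTime Function Finset MeasureTheory
open Vale.Agent.P363.Stmt Vale.Agent.P370.H305 Vale.Agent.P370.H115
open Vale.Agent.P370.Heis (Code)

noncomputable section

/-! ### Thresholds -/

/-- The threshold at the value `k + q` of the Heisenberg form. -/
def thr (K : Expo) (o : Code → ℚ) (q : ℚ) (x : Code) : ℚ :=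
  (((base x.2.1 ^ K.kZ) ^ 2 : ℕ) : ℚ) *
      (-(((base x.2.1 ^ K.kn : ℕ) : ℚ) - 1) -
        ((dD x : ℕ) : ℚ) / ((2 * (base x.2.1 ^ K.kn) ^ 2 : ℕ) : ℚ)) +
    ((base x.2.1 ^ K.kZ : ℕ) : ℚ) *
      (o x + (((x.2.2 : ℕ) : ℚ) + q - ((2 * x.2.1.length : ℕ) : ℚ)) / ((base x.2.1 ^ K.ks : ℕ) : ℚ))

theorem PT_thr (K : Expo) {o : Code → ℚ} (ho : PT ∅ o) (q : ℚ) : PT ∅ (thr K o q) := by
  have h1 := PT_pw K.kn
  have hZ := PT_pw K.kZ
  have hs := PT_pw K.ks
  refine PT_ratAdd (PT_ratMul (PT_ratOfNat (hZ.powConst 2))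
    (PT_ratSub (PT_ratNeg (PT_ratSub (PT_ratOfNat h1) (PT.const 1)))
      (PT_ratDivNat (PT_ratOfNat PT_dD) ((PT.const 2).mul (h1.powConst 2)) fun x => ?_)))
    (PT_ratMul (PT_ratOfNat hZ) (PT_ratAdd ho (PT_ratDivNat (PT_ratSub (PT_ratAdd
      (PT_ratOfNat PT.snd'.snd) (PT.const q)) (PT_ratOfNat ((PT.const 2).mul PT_edges.length))) hs
      fun x => pw_pos _ _)))
  have := pw_pos x.2.1 K.kn
  positivity

theorem thr_cast (K : Expo) (o : Code → ℚ) (q : ℚ) {D : ℕ} {E : List (ℕ × ℕ)} {k : ℕ}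
    (h : Heis.Good (D, E, k)) :
    ((thr K o q (D, E, k) : ℚ) : ℝ) = enB K D E (o (D, E, k)) (k + q) := by
  unfold thr enB e0
  rw [dD_good h]
  simp only
  push_cast
  ring

/-! ### Number of electrons -/

/-- The number of electrons. -/
def nE (K : Expo) (x : Code) : ℕ := nel (base x.2.1 ^ K.kn) (dD x)

theorem natSum_list_range {f : ℕ → ℕ} (n : ℕ) :
    ((List.range n).map f).sum = ∑ i ∈ range n, f i := by
  induction n with
  | zero => simp
  | succ n ih => rw [List.range_succ, List.map_append, List.sum_append, ih, Finset.sum_range_succ]; simp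

theorem PT_nE (K : Expo) : PT ∅ (nE K) := by
  have h : PT ∅ (fun x : Code => ((List.range (base x.2.1 ^ K.kn)).map fun j => j ^ 2).sum) :=
    PT.sum (PT.map (f := fun (_ : Code) (j : ℕ) => j ^ 2) (PT.range (PT_pw K.kn) (PBd_pw K.kn))
      (PT.snd'.powConst 2))
  exact (((PT.const 2).mul h).add PT_dD).congr fun x => by
    rw [natSum_list_range]; rfl

theorem PBd_nE (K : Expo) : PBd (nE K) := by
  refine (((PBd.const 2).mul ((PBd_pw K.kn).pow 3)).add PBd_dD).mono fun x => ?_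
  unfold nE nel
  have h : ∑ j ∈ range (base x.2.1 ^ K.kn), j ^ 2 ≤ (base x.2.1 ^ K.kn) ^ 3 := by
    calc ∑ j ∈ range (base x.2.1 ^ K.kn), j ^ 2 ≤
        ∑ _j ∈ range (base x.2.1 ^ K.kn), (base x.2.1 ^ K.kn) ^ 2 :=
          Finset.sum_le_sum fun j hj => Nat.pow_le_pow_left (mem_range.1 hj).le 2
      _ = (base x.2.1 ^ K.kn) ^ 3 := by rw [Finset.sum_const, card_range, smul_eq_mul]; ring
  omega

/-! ### The design -/

/-- The design computed by the machine. -/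
theorem exists_design {K : Expo} {k₀ c : ℕ}
    (hDl : ∀ n m a b : ℕ, 2 ≤ m → m ^ k₀ ≤ n → a < m → b < m → a ≠ b →
      1 / (n : ℝ) ^ c ≤ Dl n m a b) (hkn : k₀ + 2 ≤ K.kn) {σ : Code → ℚ}
    (hσ' : ∀ x : Code, (base x.2.1 : ℝ) ^ K.kS ≤ σ x * kap (base x.2.1 ^ K.kn) ∧
      σ x * kap (base x.2.1 ^ K.kn) ≤ 2 * (base x.2.1 : ℝ) ^ K.kS)
    {τ : Code × Un × Un → ℚ} (hτ' : ∀ p : Code × Un × Un,
      1 / ((base p.1.2.1 ^ K.kn : ℕ) : ℝ) ^ (c + 26) ≤
        Dl (base p.1.2.1 ^ K.kn) (dD p.1) p.2.1.v p.2.2.v →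
      |2 * (τ p * Mm (base p.1.2.1 ^ K.kn) (dD p.1) p.2.1.v p.2.2.v) ^ 2 /
        Dl (base p.1.2.1 ^ K.kn) (dD p.1) p.2.1.v p.2.2.v - cnt p / (base p.1.2.1 : ℝ) ^ K.ks| ≤
        1 / (32 * (base p.1.2.1 : ℝ) ^ 2 * (base p.1.2.1 : ℝ) ^ K.ks))
    {g : Fin 3 → Code × Un → ℤ}
    (hg : ∀ j p, |tgt K σ τ p j - (g j p : ℝ) / 2 ^ kp K p| ≤ 1 / 2 ^ kp K p)
    {D : ℕ} {E : List (ℕ × ℕ)} {k : ℕ} (hgood : Heis.Good (D, E, k)) :
    ∃ d : Design K D E, d.σ = σ (D, E, k) ∧ d.y = yL K g (D, E, k) := by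
  have hD := dD_good hgood
  have hidx : ∀ k' ∈ H198.box ((base E ^ K.kt) ^ 4), idx ((base E ^ K.kt) ^ 4) k' + 1 <
      md K (D, E, k) := fun k' hk' => by
    have h : idx ((base E ^ K.kt) ^ 4) k' < nL K (D, E, k) := idx_lt hk'
    rw [md_eq]
    omega
  refine ⟨⟨σ (D, E, k), fun a b => (τ ((D, E, k), Un.mk a, Un.mk b) : ℝ), yL K g (D, E, k),
    hσ' (D, E, k), ?_, ?_, ?_⟩, rfl, rfl⟩
  · intro a b hab hbD
    have h1 := hτ' ((D, E, k), Un.mk a, Un.mk b)
    simp only at h1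
    rw [hD] at h1
    refine h1 ?_
    have hDE : D ≤ E.length := hgood.2.1
    have hDn : D ^ k₀ ≤ base E ^ K.kn := by
      calc D ^ k₀ ≤ base E ^ k₀ := Nat.pow_le_pow_left (by unfold base; omega) k₀
        _ ≤ base E ^ K.kn := Nat.pow_le_pow_right (by have := two_le_base E; omega) (by omega)
    refine le_trans ?_ (hDl _ D a b (by omega) hDn (by omega) hbD (by omega))
    have h2 : (1 : ℝ) ≤ ((base E ^ K.kn : ℕ) : ℝ) := by exact_mod_cast pw_pos E K.kn
    exact one_div_le_one_div_of_le (by positivity) (pow_le_pow_right₀ h2 (by omega))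
  · intro k' hk'
    have h1 := yv_err hg ((D, E, k), Un.mk (idx ((base E ^ K.kt) ^ 4) k')) (hidx k' hk').le
    unfold tgt uX at h1
    simp only at h1
    rw [hD, kOf_idx hk'] at h1
    exact h1
  · intro k' hk'
    have h1 := yv_lower (K := K) (g := g) (x := (D, E, k)) (hidx k' hk')
    have h2 : (0 : ℝ) < ((2 ^ kp K ((D, E, k), Un.mk (idx ((base E ^ K.kt) ^ 4) k')) *
        md K (D, E, k) : ℕ) : ℝ) := by
      have := md_pos K (D, E, k)
      positivity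
    have h3 : 0 < ‖yL K g (D, E, k) k'‖ := lt_of_lt_of_le (by positivity) h1
    exact norm_pos_iff.1 h3

theorem off_eq {K : Expo} {σ : Code → ℚ} {g : Fin 3 → Code × Un → ℤ}
    {D : ℕ} {E : List (ℕ × ℕ)} {k : ℕ} (hgood : Heis.Good (D, E, k)) (d : Design K D E)
    (h1 : d.σ = σ (D, E, k)) (h2 : d.y = yL K g (D, E, k)) :
    off H374.coreE H374.fE H227.phiC H227.phiJ d = offX K σ g (D, E, k) := by
  unfold off offX
  rw [h1, h2, dD_good hgood, sum_box]
  simp only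
  have e1 : ∑ i ∈ range ((2 * (base E ^ K.kt) ^ 4 + 1) ^ 3),
      (H227.phiC (base E ^ K.kn) ‖yL K g (D, E, k) (kOf ((base E ^ K.kt) ^ 4) i)‖ +
        D * H227.phiJ (base E ^ K.kn) ‖yL K g (D, E, k) (kOf ((base E ^ K.kt) ^ 4) i)‖) =
      ∑ i ∈ range (nL K (D, E, k)),
      (H227.phiC (base E ^ K.kn) ‖yv K g ((D, E, k), Un.mk (min i (nL K (D, E, k) - 1)))‖ +
        D * H227.phiJ (base E ^ K.kn) ‖yv K g ((D, E, k), Un.mk (min i (nL K (D, E, k) - 1)))‖) := by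
    refine Finset.sum_congr rfl fun i hi => ?_
    have hi' : i < nL K (D, E, k) := mem_range.1 hi
    rw [min_eq_left (by omega), ← yL_kOf hi']
  rw [e1]
  have e2 : ∑ a ∈ range D, ∑ b ∈ (range D).erase a, Dm (base E ^ K.kn) D a b =
      ∑ a ∈ range D, ∑ b ∈ range D, if b = a then 0 else Dm (base E ^ K.kn) D a b := by
    refine Finset.sum_congr rfl fun a _ => ?_
    rw [← Finset.filter_ne', Finset.sum_filter]
    refine Finset.sum_congr rfl fun b _ => ?_
    by_cases h : b = a <;> simp [h]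
  rw [e2]
  push_cast
  rfl

/-- **The program of the second half**, from the computability of the gradient. -/
theorem prog_of (hG : GradPTR) (hG0 : GradZero) :
    ProgStmt H374.coreE H374.fE H227.phiC H227.phiJ := by
  obtain ⟨k₀, c, hDl⟩ := H253.Dl_lower_pow
  refine ⟨k₀ + 2, fun K hK => ?_⟩
  have hkn : 2 ≤ K.kn := by omega
  obtain ⟨σ, hσ, hσ'⟩ := exists_sigma' K hkn
  obtain ⟨τ, hτ, hτ'⟩ := exists_tau' (K := K) hkn (c + 26) (by omega)
  choose g hg hg' using fun j =>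
    (PTR_tgt hG hG0 K hkn hσ hτ j).exists_int (PT_kp K) (PBd_kp K)
  obtain ⟨o, ho, ho'⟩ := (PTW_offX hkn hσ hg).exists_rat
    (κ := fun x => 16 * base x.2.1 ^ K.ks) ((PT.const 16).mul (PT_pw K.ks))
    ((PBd.const 16).mul (PBd_pw K.ks))
  refine ⟨fun x => ⟨nuc K g x, nE K x, thr K o (1 / 4) x, thr K o (3 / 4) x⟩, ?_, ?_⟩
  · exact PT_instance (PT_nuc K hg) (PT_nE K) (PBd_nE K) (PT_thr K ho _) (PT_thr K ho _)
  · intro D E k hgood
    obtain ⟨d, hd1, hd2⟩ := exists_design (K := K) hDl hK hσ' hτ' hg' hgood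
    refine ⟨d, o (D, E, k), ?_, nuc_ne K g _, nuc_nodup K g _, nuc_pos K g _, ?_, ?_, ?_, ?_⟩
    · rw [off_eq hgood d hd1 hd2, abs_sub_comm]
      refine (ho' (D, E, k)).trans ?_
      have h1 : (0 : ℝ) < (base E : ℝ) ^ K.ks := by exact_mod_cast pw_pos E K.ks
      simp only
      push_cast
      exact one_div_le_one_div_of_le (by positivity) (by linarith)
    · rw [hd2]
      exact nuc_same K g (D, E, k)
    · show nE K (D, E, k) = _
      unfold nE
      rw [dD_good hgood]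
    · have := thr_cast K o (1 / 4) hgood
      rw [this]
      push_cast
      rfl
    · have := thr_cast K o (3 / 4) hgood
      rw [this]
      push_cast
      rfl

end

end Vale.Agent.P370.H855
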