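import Vale.Agent.P370.H855.Box
import Vale.Agent.P370.H305.Iface
import Vale.Agent.Lib.PCP.PT.Fin

/-!
The program of the second half of line Q, part A: the parameters, the selection strength and the
hopping amplitudes.
-/

namespace Vale.Agent.P370.H855

open Vale.Agent.Lib.PolyTime Function Finset
open Vale.Agent.P363.Stmt Vale.Agent.P370.H305
open Vale.Agent.P370.Heis (Code)

noncomputable section

/-! ### Parameters -/

theorem PT_edges : PT ∅ (fun x : Code => x.2.1) := PT.snd'.fst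

theorem PT_base : PT ∅ (fun x : Code => base x.2.1) := PT_edges.length.add (PT.const 2)

theorem PBd_base : PBd (fun x : Code => base x.2.1) :=
  (PBd.length (A := ∅) PT_edges).add (PBd.const 2)

theorem PT_pw (k : ℕ) : PT ∅ (fun x : Code => base x.2.1 ^ k) := PT_base.powConst k

theorem PBd_pw (k : ℕ) : PBd (fun x : Code => base x.2.1 ^ k) := PBd_base.pow k

theorem two_le_base (E : List (ℕ × ℕ)) : 2 ≤ base E := by unfold base; omega

theorem pw_pos (E : List (ℕ × ℕ)) (k : ℕ) : 0 < base E ^ k :=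
  pow_pos (by have := two_le_base E; omega) k

/-- The number of sites (not more than the number of edges). -/
def dD (x : Code) : ℕ := min x.1 x.2.1.length

theorem PT_dD : PT ∅ dD := PT.min PT.fst' PT_edges.length

theorem PBd_dD : PBd dD := (PBd.length (A := ∅) PT_edges).mono fun _ => min_le_right _ _

theorem dD_good {D : ℕ} {E : List (ℕ × ℕ)} {k : ℕ} (h : Heis.Good (D, E, k)) : dD (D, E, k) = D :=
  min_eq_left h.2.1

/-! ### The selection strength -/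

theorem exists_sigma {kn c : ℕ} (kS : ℕ)
    (hkap : PTR (fun x : Code => kap (base x.2.1 ^ kn)))
    (hlo : ∀ x : Code, 1 / ((base x.2.1 ^ kn : ℕ) : ℝ) ^ c ≤ kap (base x.2.1 ^ kn))
    (hhi : ∀ x : Code, kap (base x.2.1 ^ kn) ≤ 1) :
    ∃ σ : Code → ℚ, PT ∅ σ ∧ ∀ x : Code, (base x.2.1 : ℝ) ^ kS ≤ σ x * kap (base x.2.1 ^ kn) ∧
      σ x * kap (base x.2.1 ^ kn) ≤ 2 * (base x.2.1 : ℝ) ^ kS := by
  have hnc : PT ∅ (fun x : Code => (base x.2.1 ^ kn) ^ c) := (PT_pw kn).powConst c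
  have hpos : ∀ x : Code, 0 < kap (base x.2.1 ^ kn) := fun x =>
    lt_of_lt_of_le (by have := pw_pos x.2.1 kn; positivity) (hlo x)
  have hinv : PTR (fun x : Code => (kap (base x.2.1 ^ kn))⁻¹) := by
    refine hkap.inv (c := fun x => Nat.size ((base x.2.1 ^ kn) ^ c)) hnc.natSize
      (hnc.pbd.mono fun a => by rw [esize_nat]) fun x => ?_
    rw [abs_of_pos (hpos x)]
    refine le_trans ?_ (hlo x)
    have h1 : (((base x.2.1 ^ kn) ^ c : ℕ) : ℝ) ≤ 2 ^ Nat.size ((base x.2.1 ^ kn) ^ c) := by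
      exact_mod_cast (Nat.lt_size_self _).le
    have h2 : (0 : ℝ) < ((base x.2.1 ^ kn : ℕ) : ℝ) ^ c := by
      have := pw_pos x.2.1 kn; positivity
    rw [Nat.cast_pow] at h1
    exact one_div_le_one_div_of_le h2 h1
  have hf : PTR (fun x : Code => ((3 / 2 : ℚ) : ℝ) * ((base x.2.1 ^ kS : ℕ) : ℝ) *
      (kap (base x.2.1 ^ kn))⁻¹) :=
    ((PTR.constRat _).mul (PTR.ofNat (PT_pw kS))).mul hinv
  obtain ⟨σ, hσ, hσ'⟩ := hf.exists_rat (PT.const 1) (PBd.const 1)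
  refine ⟨σ, hσ, fun x => ?_⟩
  have h1 := hσ' x
  push_cast at h1
  have hk := hpos x
  have hk1 := hhi x
  have hB : (1 : ℝ) ≤ (base x.2.1 : ℝ) ^ kS := by
    exact one_le_pow₀ (by exact_mod_cast (by have := two_le_base x.2.1; omega : 1 ≤ base x.2.1))
  set k := kap (base x.2.1 ^ kn) with hkd
  set b := (base x.2.1 : ℝ) ^ kS with hb
  rw [abs_le] at h1
  have e : (3 / 2 : ℝ) * b * k⁻¹ * k = 3 / 2 * b := by field_simp
  constructor
  · have := mul_le_mul_of_nonneg_right h1.2 hk.le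
    nlinarith
  · have := mul_le_mul_of_nonneg_right h1.1 hk.le
    nlinarith

/-! ### The hopping amplitudes -/

/-- Multiplicity of a pair. -/
def cnt (p : Code × Un × Un) : ℕ := p.1.2.1.count (p.2.1.v, p.2.2.v)

theorem PT_cnt : PT ∅ cnt := by
  have h : PT ∅ (fun q : (Code × Un × Un) × (ℕ × ℕ) => decide (q.2 = (q.1.2.1.v, q.1.2.2.v))) :=
    PT.eq PT.snd' ((PT.fst'.snd.fst.unVal).pair PT.fst'.snd.snd.unVal)
  refine (PT.countP (f := fun (p : Code × Un × Un) (e : ℕ × ℕ) =>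
    decide (e = (p.2.1.v, p.2.2.v))) (PT_edges.comp PT.fst') h).congr fun p => ?_
  unfold cnt
  rw [List.count_eq_countP]
  refine List.countP_congr fun e _ => ?_
  simp

theorem cnt_le (p : Code × Un × Un) : cnt p ≤ p.1.2.1.length := List.count_le_length

theorem sqrt_le_add_one {y : ℝ} (hy : 0 ≤ y) : √y ≤ y + 1 := by
  rw [Real.sqrt_le_left (by linarith)]
  nlinarith

theorem exists_tau {kn c Cd : ℕ} (ks : ℕ)
    (hM : PTW (fun p : Code × Un × Un => Mm (base p.1.2.1 ^ kn) (dD p.1) p.2.1.v p.2.2.v))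
    (hD : PTW (fun p : Code × Un × Un => Dl (base p.1.2.1 ^ kn) (dD p.1) p.2.1.v p.2.2.v))
    (hMlo : ∀ p : Code × Un × Un, 1 / ((base p.1.2.1 ^ kn : ℕ) : ℝ) ^ c ≤
      Mm (base p.1.2.1 ^ kn) (dD p.1) p.2.1.v p.2.2.v)
    (hMhi : ∀ p : Code × Un × Un, Mm (base p.1.2.1 ^ kn) (dD p.1) p.2.1.v p.2.2.v ≤ 1)
    (hDhi : ∀ p : Code × Un × Un, |Dl (base p.1.2.1 ^ kn) (dD p.1) p.2.1.v p.2.2.v| ≤ Cd) :
    ∃ τ : Code × Un × Un → ℚ, PT ∅ τ ∧ ∀ p : Code × Un × Un,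
      1 / ((base p.1.2.1 ^ kn : ℕ) : ℝ) ^ c ≤ Dl (base p.1.2.1 ^ kn) (dD p.1) p.2.1.v p.2.2.v →
      |2 * (τ p * Mm (base p.1.2.1 ^ kn) (dD p.1) p.2.1.v p.2.2.v) ^ 2 /
        Dl (base p.1.2.1 ^ kn) (dD p.1) p.2.1.v p.2.2.v - cnt p / (base p.1.2.1 : ℝ) ^ ks| ≤
        1 / (32 * (base p.1.2.1 : ℝ) ^ 2 * (base p.1.2.1 : ℝ) ^ ks) := by
  have h1 : PT ∅ (fun p : Code × Un × Un => p.1) := PT.fst'
  have hL : PT ∅ (fun p : Code × Un × Un => p.1.2.1.length) := (PT_edges.comp h1).length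
  have hLb : PBd (fun p : Code × Un × Un => p.1.2.1.length) := PBd.length (A := ∅) (PT_edges.comp h1)
  have hB : ∀ k, PT ∅ (fun p : Code × Un × Un => base p.1.2.1 ^ k) := fun k => (PT_pw k).comp h1
  have hBb : ∀ k, PBd (fun p : Code × Un × Un => base p.1.2.1 ^ k) := fun k =>
    (PBd_pw k).comp (A := ∅) h1
  have hbpos : ∀ (p : Code × Un × Un) k, 0 < base p.1.2.1 ^ k := fun p k => pw_pos _ _
  -- the weight
  have hw : PTR (fun p : Code × Un × Un => ((cnt p : ℕ) : ℤ) / (((2 * base p.1.2.1 ^ ks : ℕ) : ℝ))) :=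
    PTR.ofFrac PT_cnt.natCast ((PT.const 2).mul (hB ks))
  have hwb : ∀ p : Code × Un × Un,
      |(((cnt p : ℕ) : ℤ) : ℝ) / (((2 * base p.1.2.1 ^ ks : ℕ) : ℝ))| ≤ p.1.2.1.length := fun p => by
    have h2 := hbpos p ks
    rw [abs_of_nonneg (by positivity)]
    refine (div_le_self (by positivity) ?_).trans ?_
    · exact_mod_cast (by omega : 1 ≤ 2 * base p.1.2.1 ^ ks)
    · push_cast
      exact_mod_cast cnt_le p
  have hF1 : PTW (fun p : Code × Un × Un =>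
      √(Dl (base p.1.2.1 ^ kn) (dD p.1) p.2.1.v p.2.2.v *
        ((((cnt p : ℕ) : ℤ) : ℝ) / (((2 * base p.1.2.1 ^ ks : ℕ) : ℝ))))) :=
    (hD.mul hw.toPTW (B1 := fun _ => Cd) (B2 := fun p => p.1.2.1.length) (PT.const Cd) (PBd.const Cd)
      hL hLb (fun p => hDhi p) hwb).sqrt
  have hF1b : ∀ p : Code × Un × Un, |√(Dl (base p.1.2.1 ^ kn) (dD p.1) p.2.1.v p.2.2.v *
        ((((cnt p : ℕ) : ℤ) : ℝ) / (((2 * base p.1.2.1 ^ ks : ℕ) : ℝ))))| ≤
      ((Cd * p.1.2.1.length + 1 : ℕ) : ℝ) := fun p => by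
    rw [abs_of_nonneg (Real.sqrt_nonneg _)]
    have h3 := abs_mul (Dl (base p.1.2.1 ^ kn) (dD p.1) p.2.1.v p.2.2.v)
      ((((cnt p : ℕ) : ℤ) : ℝ) / (((2 * base p.1.2.1 ^ ks : ℕ) : ℝ)))
    have h4 : |Dl (base p.1.2.1 ^ kn) (dD p.1) p.2.1.v p.2.2.v *
        ((((cnt p : ℕ) : ℤ) : ℝ) / (((2 * base p.1.2.1 ^ ks : ℕ) : ℝ)))| ≤ Cd * p.1.2.1.length := by
      rw [h3]
      exact mul_le_mul (hDhi p) (hwb p) (abs_nonneg _) (Nat.cast_nonneg _)
    have h5 : √(Dl (base p.1.2.1 ^ kn) (dD p.1) p.2.1.v p.2.2.v *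
        ((((cnt p : ℕ) : ℤ) : ℝ) / (((2 * base p.1.2.1 ^ ks : ℕ) : ℝ)))) ≤
        √(Cd * p.1.2.1.length) := Real.sqrt_le_sqrt ((le_abs_self _).trans h4)
    refine h5.trans ((sqrt_le_add_one (by positivity)).trans ?_)
    push_cast
    exact le_rfl
  -- the inverse of `M`
  have hMpos : ∀ p : Code × Un × Un, 0 < Mm (base p.1.2.1 ^ kn) (dD p.1) p.2.1.v p.2.2.v := fun p =>
    lt_of_lt_of_le (by have := hbpos p kn; positivity) (hMlo p)
  have hMinv : PTW (fun p : Code × Un × Un =>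
      (Mm (base p.1.2.1 ^ kn) (dD p.1) p.2.1.v p.2.2.v)⁻¹) := by
    refine hM.inv (c := fun p => (base p.1.2.1 ^ kn) ^ c) ((hB kn).powConst c) ((hBb kn).pow c)
      (fun p => ?_) fun p => pow_pos (hbpos p kn) c
    rw [abs_of_pos (hMpos p)]
    push_cast
    have := hMlo p
    push_cast at this
    exact this
  have hMinvb : ∀ p : Code × Un × Un, |(Mm (base p.1.2.1 ^ kn) (dD p.1) p.2.1.v p.2.2.v)⁻¹| ≤
      (((base p.1.2.1 ^ kn) ^ c : ℕ) : ℝ) := fun p => by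
    rw [abs_of_pos (inv_pos.2 (hMpos p))]
    have h2 := hMlo p
    have h3 : (0 : ℝ) < ((base p.1.2.1 ^ kn : ℕ) : ℝ) ^ c := by have := hbpos p kn; positivity
    rw [inv_le_comm₀ (hMpos p) (by exact_mod_cast pow_pos (hbpos p kn) c)]
    refine le_trans (le_of_eq ?_) h2
    rw [one_div]
    push_cast
    rfl
  have hτ : PTW (fun p : Code × Un × Un =>
      √(Dl (base p.1.2.1 ^ kn) (dD p.1) p.2.1.v p.2.2.v *
        ((((cnt p : ℕ) : ℤ) : ℝ) / (((2 * base p.1.2.1 ^ ks : ℕ) : ℝ)))) *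
        (Mm (base p.1.2.1 ^ kn) (dD p.1) p.2.1.v p.2.2.v)⁻¹) :=
    hF1.mul hMinv (((PT.const Cd).mul hL).add (PT.const 1)) (((PBd.const Cd).mul hLb).add
      (PBd.const 1)) ((hB kn).powConst c) ((hBb kn).pow c) hF1b hMinvb
  -- precision
  obtain ⟨τ, hτ1, hτ2⟩ := hτ.exists_rat
    (κ := fun p => 64 * base p.1.2.1 ^ 2 * base p.1.2.1 ^ ks * (base p.1.2.1 ^ kn) ^ c *
      (2 * ((Cd * p.1.2.1.length + 1) * (base p.1.2.1 ^ kn) ^ c) + 1))
    (((((PT.const 64).mul (hB 2)).mul (hB ks)).mul ((hB kn).powConst c)).mul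
      (((PT.const 2).mul ((((PT.const Cd).mul hL).add (PT.const 1)).mul
        ((hB kn).powConst c))).add (PT.const 1)))
    (((((PBd.const 64).mul (hBb 2)).mul (hBb ks)).mul ((hBb kn).pow c)).mul
      (((PBd.const 2).mul ((((PBd.const Cd).mul hLb).add (PBd.const 1)).mul
        ((hBb kn).pow c))).add (PBd.const 1)))
  refine ⟨τ, hτ1, fun p hp => ?_⟩
  have h2 := hτ2 p
  have hMp := hMpos p
  have hM1 := hMhi p
  have hF := hF1b p
  have hMi := hMinvb p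
  set M := Mm (base p.1.2.1 ^ kn) (dD p.1) p.2.1.v p.2.2.v with hMdef
  set Δ := Dl (base p.1.2.1 ^ kn) (dD p.1) p.2.1.v p.2.2.v with hΔdef
  set w : ℝ := (((cnt p : ℕ) : ℤ) : ℝ) / (((2 * base p.1.2.1 ^ ks : ℕ) : ℝ)) with hwdef
  set N : ℝ := ((base p.1.2.1 ^ kn : ℕ) : ℝ) ^ c with hNdef
  set b : ℝ := (base p.1.2.1 : ℝ) with hbdef
  set L : ℝ := (p.1.2.1.length : ℝ) with hLdef
  have hb0 : 0 < b := by
    rw [hbdef]; exact_mod_cast (by have := two_le_base p.1.2.1; omega : 0 < base p.1.2.1)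
  have hN0 : 0 < N := by have := hbpos p kn; rw [hNdef]; positivity
  have hL0 : 0 ≤ L := Nat.cast_nonneg _
  have hΔ0 : 0 < Δ := lt_of_lt_of_le (by positivity) hp
  have hw0 : 0 ≤ w := by rw [hwdef]; positivity
  have eN : (((base p.1.2.1 ^ kn) ^ c : ℕ) : ℝ) = N := by rw [hNdef]; push_cast; rfl
  rw [eN] at hMi
  have ewc : (cnt p : ℝ) / b ^ ks = 2 * w := by
    have h2b : ((2 * base p.1.2.1 ^ ks : ℕ) : ℝ) = 2 * b ^ ks := by rw [hbdef]; push_cast; ring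
    have hbk : b ^ ks ≠ 0 := by positivity
    rw [hwdef, h2b]
    push_cast
    field_simp
  set s := √(Δ * w) with hs
  have hs0 : 0 ≤ s := Real.sqrt_nonneg _
  have hs2 : s ^ 2 = Δ * w := Real.sq_sqrt (by positivity)
  have hsL : s ≤ Cd * L + 1 := by
    have := (le_abs_self _).trans hF
    push_cast at this
    exact this
  have hMi0 : 0 ≤ M⁻¹ := by positivity
  have hMiN : M⁻¹ ≤ N := (le_abs_self _).trans hMi
  set e : ℝ := 1 / (((64 * base p.1.2.1 ^ 2 * base p.1.2.1 ^ ks * (base p.1.2.1 ^ kn) ^ c *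
      (2 * ((Cd * p.1.2.1.length + 1) * (base p.1.2.1 ^ kn) ^ c) + 1) : ℕ) : ℝ) + 1) with he
  have he0 : 0 < e := by rw [he]; positivity
  have he1 : e ≤ 1 := by
    rw [he, div_le_one (by positivity)]
    have : (0 : ℝ) ≤ ((64 * base p.1.2.1 ^ 2 * base p.1.2.1 ^ ks * (base p.1.2.1 ^ kn) ^ c *
      (2 * ((Cd * p.1.2.1.length + 1) * (base p.1.2.1 ^ kn) ^ c) + 1) : ℕ) : ℝ) := Nat.cast_nonneg _
    linarith
  set T : ℝ := (Cd * L + 1) * N with hT
  have hT0 : 0 ≤ T := by positivity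
  have hee : e * (64 * b ^ 2 * b ^ ks * N * (2 * T + 1)) ≤ 1 := by
    rw [he, one_div, inv_mul_le_iff₀ (by positivity), mul_one]
    rw [hT, hNdef, hLdef, hbdef]
    push_cast
    linarith
  -- the real amplitude
  set t0 : ℝ := s * M⁻¹ with ht0
  have ht00 : 0 ≤ t0 := by positivity
  have ht0T : t0 ≤ T := mul_le_mul hsL hMiN hMi0 (by positivity)
  have ht0M : (t0 * M) ^ 2 = Δ * w := by
    rw [ht0, mul_assoc, inv_mul_cancel₀ hMp.ne', mul_one, hs2]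
  set q : ℝ := (τ p : ℝ) with hq
  have hqt : |q - t0| ≤ e := by rw [abs_sub_comm]; exact h2
  have hqT : |q + t0| ≤ 2 * T + 1 := by
    have e1 : q + t0 = (q - t0) + 2 * t0 := by ring
    rw [e1]
    refine (abs_add_le _ _).trans ?_
    rw [abs_of_nonneg (by positivity : (0 : ℝ) ≤ 2 * t0)]
    linarith
  have e2 : 2 * (q * M) ^ 2 / Δ - (cnt p : ℝ) / b ^ ks = 2 * M ^ 2 / Δ * ((q - t0) * (q + t0)) := by
    rw [ewc]
    have : 2 * w = 2 * (t0 * M) ^ 2 / Δ := by rw [ht0M]; field_simp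
    rw [this]
    ring
  rw [e2, abs_mul, abs_mul, abs_of_nonneg (by positivity : (0 : ℝ) ≤ 2 * M ^ 2 / Δ)]
  have h5 : 2 * M ^ 2 / Δ ≤ 2 * N := by
    rw [div_le_iff₀ hΔ0]
    have h6 : 1 ≤ N * Δ := by
      rw [div_le_iff₀ hN0] at hp
      linarith
    nlinarith
  have h7 : |q - t0| * |q + t0| ≤ e * (2 * T + 1) :=
    mul_le_mul hqt hqT (abs_nonneg _) he0.le
  calc 2 * M ^ 2 / Δ * (|q - t0| * |q + t0|) ≤ 2 * N * (e * (2 * T + 1)) :=
        mul_le_mul h5 h7 (by positivity) (by positivity)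
    _ ≤ 1 / (32 * b ^ 2 * b ^ ks) := by
        rw [le_div_iff₀ (by positivity)]
        linarith

end

end Vale.Agent.P370.H855
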