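import Vale.Agent.P370.H855.ProgB

/-!
The program of the second half of line Q, part C: the list of the nuclei.
-/

namespace Vale.Agent.P370.H855

open Vale.Agent.Lib.PolyTime Function Finset
open Vale.Agent.P363.Stmt Vale.Agent.P370.H305
open Vale.Agent.P370.Heis (Code)

noncomputable section

/-- The number of the light nuclei. -/
def nL (K : Expo) (x : Code) : ℕ := (2 * (base x.2.1 ^ K.kt) ^ 4 + 1) ^ 3

theorem md_eq (K : Expo) (x : Code) : md K x = nL K x + 1 := rfl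

theorem PT_nL (K : Expo) : PT ∅ (nL K) :=
  (((PT.const 2).mul ((PT_pw K.kt).powConst 4)).add (PT.const 1)).powConst 3

theorem PBd_nL (K : Expo) : PBd (nL K) :=
  (((PBd.const 2).mul ((PBd_pw K.kt).pow 4)).add (PBd.const 1)).pow 3

/-- The physical position of the light nucleus with number `i`. -/
def Rq (K : Expo) (g : Fin 3 → Code × Un → ℤ) (p : Code × Un) : ℚ × ℚ × ℚ :=
  ((yq K g p).1 / ((base p.1.2.1 ^ K.kZ : ℕ) : ℚ), (yq K g p).2.1 / ((base p.1.2.1 ^ K.kZ : ℕ) : ℚ),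
    (yq K g p).2.2 / ((base p.1.2.1 ^ K.kZ : ℕ) : ℚ))

theorem PT_Rq (K : Expo) {g : Fin 3 → Code × Un → ℤ} (hg : ∀ j, PT ∅ (g j)) : PT ∅ (Rq K g) := by
  have h := PT_yq K hg
  have hZ : PT ∅ (fun p : Code × Un => base p.1.2.1 ^ K.kZ) := (PT_pw K.kZ).comp PT.fst'
  have hZ0 : ∀ p : Code × Un, 0 < base p.1.2.1 ^ K.kZ := fun p => pw_pos _ _
  exact (PT_ratDivNat h.fst hZ hZ0).pair
    ((PT_ratDivNat h.snd.fst hZ hZ0).pair (PT_ratDivNat h.snd.snd hZ hZ0))

theorem point_Rq (K : Expo) (g : Fin 3 → Code × Un → ℤ) (p : Code × Un) :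
    point (Rq K g p) = (1 / ((base p.1.2.1 ^ K.kZ : ℕ) : ℝ)) • yv K g p := by
  ext j
  unfold yv point Rq
  rw [PiLp.smul_apply, smul_eq_mul]
  fin_cases j
  · simp only [Fin.zero_eta, Fin.isValue, Matrix.cons_val_zero]
    push_cast
    ring
  · simp only [Fin.mk_one, Fin.isValue, Matrix.cons_val_one, Matrix.cons_val_zero]
    push_cast
    ring
  · simp only [Fin.reduceFinMk, Matrix.cons_val]
    push_cast
    ring

/-- The nuclei. -/
def nuc (K : Expo) (g : Fin 3 → Code × Un → ℤ) (x : Code) : List ((ℚ × ℚ × ℚ) × ℕ) :=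
  ((0, 0, 0), base x.2.1 ^ K.kZ) :: (List.range (nL K x)).map fun i => (Rq K g (x, Un.mk i), 1)

theorem PT_nuc (K : Expo) {g : Fin 3 → Code × Un → ℤ} (hg : ∀ j, PT ∅ (g j)) :
    PT ∅ (nuc K g) := by
  have h1 : PT ∅ (fun x : Code => List.range (nL K x)) := PT.range (PT_nL K) (PBd_nL K)
  have h2 : PT ∅ (fun p : Code × ℕ => (Rq K g (p.1, Un.mk (min p.2 (nL K p.1))), 1)) :=
    ((PT_Rq K hg).comp (PT_clampUn (PT_nL K) (PBd_nL K))).pair (PT.const 1)
  refine (PT.cons (PT.pair (PT.const ((0 : ℚ), (0 : ℚ), (0 : ℚ))) (PT_pw K.kZ))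
    (PT.map (f := fun (x : Code) i => (Rq K g (x, Un.mk (min i (nL K x))), 1)) h1 h2)).congr
    fun x => ?_
  unfold nuc
  congr 1
  refine List.map_congr_left fun i hi => ?_
  rw [min_eq_left (List.mem_range.1 hi).le]

theorem nuc_ne (K : Expo) (g : Fin 3 → Code × Un → ℤ) (x : Code) : nuc K g x ≠ [] :=
  List.cons_ne_nil _ _

theorem nuc_pos (K : Expo) (g : Fin 3 → Code × Un → ℤ) (x : Code) : ∀ p ∈ nuc K g x, 1 ≤ p.2 := by
  intro p hp
  unfold nuc at hp
  rw [List.mem_cons, List.mem_map] at hp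
  rcases hp with rfl | ⟨i, _, rfl⟩
  · exact pw_pos _ _
  · exact le_rfl

theorem nuc_nodup (K : Expo) (g : Fin 3 → Code × Un → ℤ) (x : Code) :
    ((nuc K g x).map Prod.fst).Nodup := by
  have hZ : ((base x.2.1 ^ K.kZ : ℕ) : ℚ) ≠ 0 := by exact_mod_cast (pw_pos x.2.1 K.kZ).ne'
  unfold nuc
  rw [List.map_cons, List.map_map, List.nodup_cons]
  constructor
  · rw [List.mem_map]
    rintro ⟨i, hi, h⟩
    have hi' : i + 1 < md K x := by rw [md_eq]; have := List.mem_range.1 hi; omega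
    have h1 : (Rq K g (x, Un.mk i)).1 = 0 := by
      have := congrArg Prod.fst h
      exact this
    unfold Rq at h1
    exact yq_ne (g := g) hi' ((div_eq_zero_iff.1 h1).resolve_right hZ)
  · refine List.Nodup.map_on ?_ List.nodup_range
    intro i hi i' hi' h
    have h1 : i + 1 < md K x := by rw [md_eq]; have := List.mem_range.1 hi; omega
    have h2 : i' + 1 < md K x := by rw [md_eq]; have := List.mem_range.1 hi'; omega
    have h3 : (Rq K g (x, Un.mk i)).1 = (Rq K g (x, Un.mk i')).1 := congrArg Prod.fst h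
    unfold Rq at h3
    exact yq_inj h1 h2 ((div_left_inj' hZ).1 h3)

theorem sum_list_range {f : ℕ → ℝ} (n : ℕ) :
    ((List.range n).map f).sum = ∑ i ∈ range n, f i := by
  induction n with
  | zero => simp
  | succ n ih => rw [List.range_succ, List.map_append, List.sum_append, ih, Finset.sum_range_succ]; simp

/-- the positions as a function on the lattice -/
def yL (K : Expo) (g : Fin 3 → Code × Un → ℤ) (x : Code) (k : Fin 3 → ℤ) : R3 :=
  yv K g (x, Un.mk (idx ((base x.2.1 ^ K.kt) ^ 4) k))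

theorem yL_kOf {K : Expo} {g : Fin 3 → Code × Un → ℤ} {x : Code} {i : ℕ} (hi : i < nL K x) :
    yL K g x (kOf ((base x.2.1 ^ K.kt) ^ 4) i) = yv K g (x, Un.mk i) := by
  unfold yL
  rw [idx_kOf hi]

theorem nuc_same (K : Expo) (g : Fin 3 → Code × Un → ℤ) (x : Code) :
    SameNuclei (fun j : Fin (nuc K g x).length => ((nuc K g x).get j).2)
      (fun j => point ((nuc K g x).get j).1) (base x.2.1 ^ K.kZ)
      (H198.box ((base x.2.1 ^ K.kt) ^ 4)) (yL K g x) := by
  intro z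
  have h1 : ∑ j : Fin (nuc K g x).length,
      (((nuc K g x).get j).2 : ℝ) / ‖z - point ((nuc K g x).get j).1‖ =
      ((nuc K g x).map fun p => ((p.2 : ℕ) : ℝ) / ‖z - point p.1‖).sum :=
    Fin.sum_univ_fun_getElem (nuc K g x) fun p => ((p.2 : ℕ) : ℝ) / ‖z - point p.1‖
  rw [h1]
  have h2 : point ((0 : ℚ), (0 : ℚ), (0 : ℚ)) = 0 := by
    ext j
    unfold point
    fin_cases j <;> simp
  rw [sum_box]
  unfold nuc
  rw [List.map_cons, List.sum_cons, List.map_map, sum_list_range]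
  simp only
  rw [h2, sub_zero]
  congr 1
  refine Finset.sum_congr rfl fun i hi => ?_
  rw [yL_kOf (mem_range.1 hi)]
  simp only [Function.comp, point_Rq, Nat.cast_one]

end

end Vale.Agent.P370.H855
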