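import Vale.Agent.P370.H855.ProgC
import Vale.Agent.P370.H227.Num
import Vale.Agent.P370.H374.Num
import Vale.Agent.P370.H600.KapPT
import Vale.Agent.P370.H253.LB2
import Vale.Agent.P370.H207.PInputs
import Vale.Agent.P370.H253.Pot

/-!
The program of the second half of line Q, part D: amplitudes from the explicit integrals, and the
offset.
-/

namespace Vale.Agent.P370.H855

open Vale.Agent.Lib.PolyTime Function Finset MeasureTheory
open Vale.Agent.P363.Stmt Vale.Agent.P370.H305 Vale.Agent.P370.H115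
open Vale.Agent.P370.Heis (Code)

noncomputable section

theorem four_le_pw {kn : ℕ} (hkn : 2 ≤ kn) (E : List (ℕ × ℕ)) : 4 ≤ base E ^ kn := by
  calc 4 = 2 ^ 2 := by norm_num
    _ ≤ base E ^ 2 := Nat.pow_le_pow_left (two_le_base _) 2
    _ ≤ base E ^ kn := Nat.pow_le_pow_right (by have := two_le_base E; omega) hkn

/-! ### Bounds of the integrals -/

theorem Mm_le_one {n : ℕ} (hn : 2 ≤ n) (m a b : ℕ) : Mm n m a b ≤ 1 := by
  have h1 : ∫ x, rho n m a x = 1 := H253.norm_rC hn m a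
  rw [← h1]
  unfold Mm
  refine integral_mono_of_nonneg (Filter.Eventually.of_forall fun x => ?_)
    (H207.integrable_ringC_sq hn _) (Filter.Eventually.of_forall fun x => ?_)
  · show 0 ≤ rho n m a x * rho n m b x
    unfold rho
    positivity
  · show rho n m a x * rho n m b x ≤ rho n m a x
    exact mul_le_of_le_one_right (sq_nonneg _) (H207.ringC_sq_le_one hn _ x)

theorem Mm_ge {n : ℕ} (hn : 2 ≤ n) (m a b : ℕ) {c : ℕ} (hc : 26 ≤ c) :
    1 / (n : ℝ) ^ c ≤ Mm n m a b := by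
  refine le_trans ?_ (H253.Mm_lower hn m a b)
  have h2 : (2 : ℝ) ≤ n := by exact_mod_cast hn
  refine one_div_le_one_div_of_le (by positivity) ?_
  calc 100000 * (n : ℝ) ^ 9 ≤ 2 ^ 17 * (n : ℝ) ^ 9 := by gcongr; norm_num
    _ ≤ (n : ℝ) ^ 17 * (n : ℝ) ^ 9 := by gcongr
    _ = (n : ℝ) ^ 26 := by ring
    _ ≤ (n : ℝ) ^ c := pow_le_pow_right₀ (by linarith) hc

theorem abs_Dm_le {n : ℕ} (hn : 2 ≤ n) (m a b : ℕ) : |Dm n m a b| ≤ 3000 := by
  refine (H253.Dm_le_pow hn m a b).trans ?_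
  have h1 : (1 : ℝ) ≤ n := by exact_mod_cast (by omega : 1 ≤ n)
  have h2 : (n : ℝ) ^ (-(13 / 7) : ℝ) ≤ 1 :=
    Real.rpow_le_one_of_one_le_of_nonpos h1 (by norm_num)
  linarith

theorem abs_Dl_le {n : ℕ} (hn : 2 ≤ n) (m a b : ℕ) : |Dl n m a b| ≤ ((6000 : ℕ) : ℝ) := by
  unfold Dl
  have h1 := abs_Dm_le hn m a a
  have h2 := abs_Dm_le hn m a b
  have h3 := abs_sub (Dm n m a a) (Dm n m a b)
  push_cast
  linarith

/-! ### The amplitudes -/

theorem exists_sigma' (K : Expo) (hkn : 2 ≤ K.kn) :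
    ∃ σ : Code → ℚ, PT ∅ σ ∧ ∀ x : Code,
      (base x.2.1 : ℝ) ^ K.kS ≤ σ x * kap (base x.2.1 ^ K.kn) ∧
      σ x * kap (base x.2.1 ^ K.kn) ≤ 2 * (base x.2.1 : ℝ) ^ K.kS := by
  have h2 : ∀ x : Code, 2 ≤ base x.2.1 ^ K.kn := fun x => by
    have := four_le_pw hkn x.2.1; omega
  exact exists_sigma (c := 12) K.kS (H600.PTR_kap (PT_pw K.kn) (PBd_pw K.kn) h2)
    (fun x => H600.kap_ge (h2 x)) fun x => H600.kap_le_one (h2 x)

section

variable {K : Expo} (hkn : 2 ≤ K.kn)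

include hkn in
theorem PTW_Dm' {α : Type*} [Enc α] {z : α → Code} (hz : PT ∅ z) {a b : α → ℕ} (ha : PT ∅ a)
    (hab : PBd a) (hb : PT ∅ b) (hbb : PBd b) :
    PTW (fun x : α => Dm (base (z x).2.1 ^ K.kn) (dD (z x)) (a x) (b x)) :=
  H207.PTW_Dm ((PT_pw K.kn).comp hz) ((PBd_pw K.kn).comp (A := ∅) hz)
    (fun x => by have := four_le_pw hkn (z x).2.1; omega) (PT_dD.comp hz) ha hab hb hbb

end

theorem exists_tau' {K : Expo} (hkn : 2 ≤ K.kn) (c : ℕ) (hc : 26 ≤ c) :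
    ∃ τ : Code × Un × Un → ℚ, PT ∅ τ ∧ ∀ p : Code × Un × Un,
      1 / ((base p.1.2.1 ^ K.kn : ℕ) : ℝ) ^ c ≤
        Dl (base p.1.2.1 ^ K.kn) (dD p.1) p.2.1.v p.2.2.v →
      |2 * (τ p * Mm (base p.1.2.1 ^ K.kn) (dD p.1) p.2.1.v p.2.2.v) ^ 2 /
        Dl (base p.1.2.1 ^ K.kn) (dD p.1) p.2.1.v p.2.2.v - cnt p / (base p.1.2.1 : ℝ) ^ K.ks| ≤
        1 / (32 * (base p.1.2.1 : ℝ) ^ 2 * (base p.1.2.1 : ℝ) ^ K.ks) := by
  have h1 : PT ∅ (fun p : Code × Un × Un => p.1) := PT.fst'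
  have ha : PT ∅ (fun p : Code × Un × Un => p.2.1.v) := PT.snd'.fst.unVal
  have hb : PT ∅ (fun p : Code × Un × Un => p.2.2.v) := PT.snd'.snd.unVal
  have hab : PBd (fun p : Code × Un × Un => p.2.1.v) := PBd.unVal (A := ∅) PT.snd'.fst
  have hbb : PBd (fun p : Code × Un × Un => p.2.2.v) := PBd.unVal (A := ∅) PT.snd'.snd
  have h2 : ∀ p : Code × Un × Un, 2 ≤ base p.1.2.1 ^ K.kn := fun p => by
    have := four_le_pw hkn p.1.2.1; omega
  refine exists_tau (c := c) (Cd := 6000) K.ks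
    (H207.PTW_Mm ((PT_pw K.kn).comp h1) ((PBd_pw K.kn).comp (A := ∅) h1) h2 (PT_dD.comp h1)
      ha hab hb hbb)
    ((PTW_Dm' hkn h1 ha hab ha hab).sub (PTW_Dm' hkn h1 ha hab hb hbb))
    (fun p => Mm_ge (h2 p) _ _ _ hc) (fun p => Mm_le_one (h2 p) _ _ _)
    fun p => abs_Dl_le (h2 p) _ _ _

/-! ### The offset -/

/-- The offset of the design computed by the machine. -/
def offX (K : Expo) (σ : Code → ℚ) (g : Fin 3 → Code × Un → ℤ) (x : Code) : ℝ :=
  H374.coreE (base x.2.1 ^ K.kn) + dD x * H374.fE (base x.2.1 ^ K.kn)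
    - (∑ i ∈ range (nL K x), (H227.phiC (base x.2.1 ^ K.kn) ‖yv K g (x, Un.mk (min i (nL K x - 1)))‖ +
        dD x * H227.phiJ (base x.2.1 ^ K.kn) ‖yv K g (x, Un.mk (min i (nL K x - 1)))‖))
    - dD x * (σ x * kap (base x.2.1 ^ K.kn))
    + ((1 / 2 : ℚ) : ℝ) * ∑ a ∈ range (dD x), ∑ b ∈ range (dD x),
        if b = a then 0 else Dm (base x.2.1 ^ K.kn) (dD x) a b

theorem PTR_yv (K : Expo) {g : Fin 3 → Code × Un → ℤ} (hg : ∀ j, PT ∅ (g j)) (j : Fin 3) :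
    PTR (fun p => yv K g p j) := by
  have h := PT_yq K hg
  fin_cases j
  · exact (PTR.ofRat h.fst).congr fun p => by simp [yv, point]
  · exact (PTR.ofRat h.snd.fst).congr fun p => by simp [yv, point]
  · exact (PTR.ofRat h.snd.snd).congr fun p => by simp [yv, point]

theorem nL_pos (K : Expo) (x : Code) : 0 < nL K x := by unfold nL; positivity

theorem PTW_offX {K : Expo} (hkn : 2 ≤ K.kn) {σ : Code → ℚ} (hσ : PT ∅ σ)
    {g : Fin 3 → Code × Un → ℤ} (hg : ∀ j, PT ∅ (g j)) : PTW (offX K σ g) := by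
  have h2 : ∀ x : Code, 2 ≤ base x.2.1 ^ K.kn := fun x => by
    have := four_le_pw hkn x.2.1; omega
  have hn := PT_pw K.kn
  have hnb := PBd_pw K.kn
  have hD : PTR (fun x : Code => (dD x : ℝ)) := PTR.ofNat PT_dD
  -- the clamped index
  have hcl : PT ∅ (fun p : Code × Un => (p.1, Un.mk (min p.2.v (nL K p.1 - 1)))) :=
    PT_prec PT.fst' (PT_precv.min (((PT_nL K).comp PT.fst').sub (PT.const 1)))
      (PBd_precv.mono fun _ => min_le_left _ _)
  have hr : PTR (fun p : Code × Un => ‖yv K g (p.1, Un.mk (min p.2.v (nL K p.1 - 1)))‖) :=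
    (H227.PTR_norm fun j => PTR_yv K hg j).comp hcl
  have hkp := (PT_kp K).comp hcl
  have hkpb := (PBd_kp K).comp (A := ∅) hcl
  have hmd : PT ∅ (fun p : Code × Un => md K p.1) := (PT_md K).comp PT.fst'
  have hc : PT ∅ (fun p : Code × Un => kp K (p.1, Un.mk (min p.2.v (nL K p.1 - 1))) +
      Nat.size (md K p.1)) := hkp.add hmd.natSize
  have hcb : PBd (fun p : Code × Un => kp K (p.1, Un.mk (min p.2.v (nL K p.1 - 1))) +
      Nat.size (md K p.1)) := hkpb.add (hmd.pbd.mono fun a => by rw [esize_nat])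
  have hrc : ∀ p : Code × Un, 1 / 2 ^ (kp K (p.1, Un.mk (min p.2.v (nL K p.1 - 1))) +
      Nat.size (md K p.1)) ≤ ‖yv K g (p.1, Un.mk (min p.2.v (nL K p.1 - 1)))‖ := fun p => by
    have h3 : min p.2.v (nL K p.1 - 1) + 1 < md K p.1 := by
      rw [md_eq]
      have := nL_pos K p.1
      have := min_le_right p.2.v (nL K p.1 - 1)
      omega
    refine le_trans ?_ (yv_lower (g := g) h3)
    have h4 : 0 < 2 ^ kp K (p.1, Un.mk (min p.2.v (nL K p.1 - 1))) * md K p.1 :=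
      Nat.mul_pos (by positivity) (md_pos K p.1)
    refine one_div_le_one_div_of_le (by exact_mod_cast h4) ?_
    have h5 : ((md K p.1 : ℕ) : ℝ) ≤ 2 ^ Nat.size (md K p.1) := by
      exact_mod_cast (Nat.lt_size_self _).le
    rw [pow_add]
    push_cast
    gcongr
  have hr0 : ∀ p : Code × Un, 0 ≤ ‖yv K g (p.1, Un.mk (min p.2.v (nL K p.1 - 1)))‖ :=
    fun p => norm_nonneg _
  have hn' : PT ∅ (fun p : Code × Un => base p.1.2.1 ^ K.kn) := hn.comp PT.fst'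
  have hnb' : PBd (fun p : Code × Un => base p.1.2.1 ^ K.kn) := hnb.comp (A := ∅) PT.fst'
  have hphi : PTR (fun x : Code => ∑ i ∈ range (nL K x),
      (H227.phiC (base x.2.1 ^ K.kn) ‖yv K g (x, Un.mk (min i (nL K x - 1)))‖ +
        dD x * H227.phiJ (base x.2.1 ^ K.kn) ‖yv K g (x, Un.mk (min i (nL K x - 1)))‖)) :=
    PTR.sumUn (F := fun (x : Code) i =>
      (H227.phiC (base x.2.1 ^ K.kn) ‖yv K g (x, Un.mk (min i (nL K x - 1)))‖ +
        dD x * H227.phiJ (base x.2.1 ^ K.kn) ‖yv K g (x, Un.mk (min i (nL K x - 1)))‖))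
      (PT_nL K) (PBd_nL K)
      ((H227.PTR_phiC hn' hnb' hr hr0 hc hcb hrc).add
        ((hD.comp PT.fst').mul (H227.PTR_phiJ hn' hnb' hr hr0 hc hcb hrc)))
  have hDm : PTW (fun x : Code => ∑ a ∈ range (dD x), ∑ b ∈ range (dD x),
      if b = a then 0 else Dm (base x.2.1 ^ K.kn) (dD x) a b) := by
    refine PTW.sumUn (F := fun (x : Code) a => ∑ b ∈ range (dD x),
      if b = a then 0 else Dm (base x.2.1 ^ K.kn) (dD x) a b) PT_dD PBd_dD ?_
    have h1 : PT ∅ (fun p : Code × Un => dD p.1) := PT_dD.comp PT.fst'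
    have h1b : PBd (fun p : Code × Un => dD p.1) := PBd_dD.comp (A := ∅) PT.fst'
    refine PTW.sumUn (F := fun (p : Code × Un) b =>
      if b = p.2.v then 0 else Dm (base p.1.2.1 ^ K.kn) (dD p.1) p.2.v b) h1 h1b ?_
    have ha : PT ∅ (fun q : (Code × Un) × Un => q.1.2.v) := PT.fst'.snd.unVal
    have hab : PBd (fun q : (Code × Un) × Un => q.1.2.v) := PBd.unVal (A := ∅) PT.fst'.snd
    exact PTW.ite (p := fun q : (Code × Un) × Un => q.2.v = q.1.2.v) (PT_precv.eqNat ha)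
      PTR.zero.toPTW (PTW_Dm' hkn PT.fst'.fst ha hab PT_precv PBd_precv)
  exact (((((H374.PTR_coreE hn hnb).add (hD.mul (H374.PTR_fE hn hnb))).sub hphi).sub
    (hD.mul ((PTR.ofRat hσ).mul (H600.PTR_kap hn hnb h2)))).toPTW).add (hDm.mulConst (1 / 2))

end

end Vale.Agent.P370.H855
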